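import Vale.Agent.P352.GFDefs

namespace Vale.Agent.P352R.P

open Vale.Agent.P352.GF

/-- **Countably many covariant fields.** The fields form a vector space of countable dimension, the
Bose fields form a subspace, and the dilations and the Lorentz transformations map fields to fields
and Bose fields to Bose fields. -/
structure CntF {D : Type*} [NormedAddCommGroup D] [InnerProductSpace ℂ D] (Q : Theory D) :
    Prop where
  cnt : ∃ S : Set (Fld D), S.Countable ∧ ∀ B, Q.fld B ↔ B ∈ Submodule.span ℂ S
  sub : ∀ B ∈ Submodule.span ℂ {B | Q.bose B}, Q.bose B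
  cov : ∀ s L B, 0 < s → IsLor L → Q.fld B → ∃ C, Q.fld C ∧ (Q.bose B → Q.bose C) ∧
    ∀ f v, IsTest f → Q.U s L 0 (B (fun x => f (sim s L 0 x)) v) = C f (Q.U s L 0 v)

end Vale.Agent.P352R.P
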