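import Vale.Agent.P352W.Rp.Der

/-!
# P352R, blocks Ct and Cf: the orbit of a field under a curve of similitudes
-/

set_option linter.all false

noncomputable section

open Filter Topology SchwartzMap Complex
open scoped SchwartzMap

namespace Vale.Agent.P352R.Cf

open Vale.Agent.P352 Vale.Agent.P352.GF Vale.Agent.P352.H746 Vale.Agent.P352.H15
open Vale.Agent.P352.H246 Vale.Agent.P352.H496 Vale.Agent.P352W.Rp

variable {D : Type*} [NormedAddCommGroup D] [InnerProductSpace ℂ D] {Q : Theory D}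
variable {s : ℝ → ℝ} {L : ℝ → Ix → V} {a : ℝ → V} {w : Ix → V} {r : ℝ} {c : V}

namespace Co

lemma derU (K : Crv s L a w r c) {Y : D → D}
    (hd : ∀ v, HasDerivAt (fun e => Q.U (s e) (L e) (a e) v) (Y v) 0)
    {ψ : ℝ → D} {ψ' : D} (hψ : HasDerivAt ψ ψ' 0) :
    HasDerivAt (fun e => Q.U (s e) (L e) (a e) (ψ e)) (Y (ψ 0) + ψ') 0 := by
  have t1 := hasDerivAt_iff_tendsto_slope.1 (hd (ψ 0))
  have t3 : Tendsto (fun e => Q.U (s e) (L e) (a e) ψ') (𝓝[≠] 0) (𝓝 ψ') := by
    have h1 := (hd ψ').continuousAt.tendsto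
    rw [U_at0 K] at h1
    exact h1.mono_left nhdsWithin_le_nhds
  have t2 : Tendsto (fun e => Q.U (s e) (L e) (a e) (slope ψ 0 e - ψ')) (𝓝[≠] 0) (𝓝 0) := by
    have h1 := (hasDerivAt_iff_tendsto_slope.1 hψ).sub_const ψ'
    rw [sub_self] at h1
    rw [tendsto_zero_iff_norm_tendsto_zero] at h1 ⊢
    refine h1.congr fun e => ?_
    rw [U_nrm0 (K.sp e) (K.lor e)]
  have t4 := (t1.add t2).add t3
  rw [add_zero] at t4
  rw [hasDerivAt_iff_tendsto_slope]
  refine t4.congr fun e => ?_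
  have e2 : ∀ u : ℝ → D, slope u 0 e = ((e : ℂ))⁻¹ • (u e - u 0) := by
    intro u
    rw [slope_def_module, sub_zero, ← ofReal_inv]
    rfl
  rw [e2 (fun e => Q.U (s e) (L e) (a e) (ψ 0)), e2 (fun e => Q.U (s e) (L e) (a e) (ψ e)), e2 ψ,
    H746.U_sub' (K.sp e) (K.lor e), U_smul (K.sp e) (K.lor e), H746.U_sub' (K.sp e) (K.lor e)]
  simp only [U_at0 K]
  simp only [smul_sub]
  abel

lemma tsim {s : ℝ} {L : Ix → V} (hs : 0 < s) (hL : IsLor L) (a : V) {f : Fn} (hf : GF.IsTest f) :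
    GF.IsTest fun x => f (sim s L a x) := by
  obtain ⟨F, rfl⟩ := exists_fl hf
  rw [fl_sim s hs hL]
  exact isTest_fl _

lemma sim_mul (s s' : ℝ) (L L' : Ix → V) (x : V) :
    sim (s * s') (fun m => sim 1 L 0 (L' m)) 0 x = sim s L 0 (sim s' L' 0 x) := by
  funext n
  simp only [sim, Pi.zero_apply, zero_add, one_mul, Finset.mul_sum, Finset.sum_mul]
  rw [Finset.sum_comm]
  refine Finset.sum_congr rfl fun k _ => Finset.sum_congr rfl fun m _ => ?_
  ring

lemma sim_zero (s : ℝ) (L : Ix → V) : sim s L 0 0 = 0 := by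
  funext n
  simp [sim]

lemma U_cont {s : ℝ} (hs : 0 < s) {L : Ix → V} (hL : IsLor L) (a : V) :
    Continuous (Q.U s L a) := by
  refine (Isometry.of_dist_eq fun x y => ?_).continuous
  rw [dist_eq_norm, dist_eq_norm, ← H746.U_sub' hs hL, U_nrm0 hs hL]

end Co

open Co

/-- the derivative at the identity of the orbit of a field along a curve of similitudes -/
theorem der_orb (K : Crv s L a w r c) {X : V → V}
    (hX : ∀ z n, X z n = c n + r * z n + ∑ m, z m * w m n) {Y : D → D}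
    (hd : ∀ v, HasDerivAt (fun e => Q.U (s e) (L e) (a e) v) (Y v) 0)
    {B : Fld D} (hB : Q.fld B) {f : Fn} (hf : GF.IsTest f) (v : D) :
    HasDerivAt (fun e => Q.U (s e) (L e) (a e) (B (fun x => f (sim (s e) (L e) (a e) x)) v))
      (Y (B f v) + B (vf X f) v) 0 := by
  obtain ⟨F, rfl⟩ := exists_fl hf
  have h1 := K.der ((fcl hB v).restrictScalars ℝ) F
  have h2 := derU K hd h1
  simp only [ContinuousLinearMap.coe_restrictScalars', fcl_apply, K.cs_zero, fl_vfS hX] at h2
  refine h2.congr_of_eventuallyEq (Eventually.of_forall fun e => ?_)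
  simp only [fl_sim (s e) (K.sp e) (K.lor e)]
  rfl

/-- the same for a representation -/
theorem der_rep {A : (V → V) → D → D} (R : Rep Q A) (K : Crv s L a w r c) {X : V → V}
    (hX : ∀ z n, X z n = c n + r * z n + ∑ m, z m * w m n)
    {B : Fld D} (hB : Q.fld B) {f : Fn} (hf : GF.IsTest f) (v : D) :
    HasDerivAt (fun e => Q.U (s e) (L e) (a e) (B (fun x => f (sim (s e) (L e) (a e) x)) v))
      (I • A X (B f v) + B (vf X f) v) 0 :=
  der_orb K hX (Y := fun v => I • A X v) (der_U0 R K hX) hB hf v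

/-- **the orbit of a field under a one parameter group of similitudes is continuous** -/
theorem con0 (K : Crv s L (fun _ => 0) w r 0) {Y : D → D}
    (hd : ∀ v, HasDerivAt (fun e => Q.U (s e) (L e) 0 v) (Y v) 0)
    (hs : ∀ t e, s (t + e) = s t * s e)
    (hL : ∀ t e, L (t + e) = fun m => sim 1 (L t) 0 (L e m))
    (hU : ∀ t e v, Q.U (s t) (L t) 0 (Q.U (s e) (L e) 0 v) = Q.U (s (t + e)) (L (t + e)) 0 v)
    {B : Fld D} (hB : Q.fld B) {f : Fn} (hf : GF.IsTest f) (v : D) :
    Continuous fun t => Q.U (s t) (L t) 0 (B (fun x => f (sim (s t) (L t) 0 x)) v) := by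
  refine continuous_iff_continuousAt.2 fun t => ?_
  have h1 := (der_orb K (X := fun z n => (0 : V) n + r * z n + ∑ m, z m * w m n) (fun _ _ => rfl)
    hd hB (tsim (K.sp t) (K.lor t) 0 hf) v).continuousAt
  have h2 := ((U_cont (Q := Q) (K.sp t) (K.lor t) 0).continuousAt.comp h1)
  have h3 : ContinuousAt (fun u : ℝ => u - t) t := by fun_prop
  have h4 := ContinuousAt.comp_of_eq h2 h3 (sub_self t)
  refine h4.congr (Eventually.of_forall fun u => ?_)
  simp only [Function.comp_apply]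
  rw [hU, add_sub_cancel]
  congr 2
  funext x
  rw [← sim_mul, ← hs, ← hL, add_sub_cancel]

theorem con {A : (V → V) → D → D} (R : Rep Q A) (K : Crv s L (fun _ => 0) w r 0)
    (hs : ∀ t e, s (t + e) = s t * s e)
    (hL : ∀ t e, L (t + e) = fun m => sim 1 (L t) 0 (L e m))
    {B : Fld D} (hB : Q.fld B) {f : Fn} (hf : GF.IsTest f) (v : D) :
    Continuous fun t => Q.U (s t) (L t) 0 (B (fun x => f (sim (s t) (L t) 0 x)) v) := by
  refine con0 K (der_U0 R K (X := fun z n => (0 : V) n + r * z n + ∑ m, z m * w m n)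
    (fun _ _ => rfl)) hs hL (fun t e v => ?_) hB hf v
  rw [R.mul _ _ _ _ _ _ _ (K.sp t) (K.sp e) (K.lor t) (K.lor e), sim_zero, ← hs, ← hL]

lemma Co.crv_dil : Crv (fun t => Real.exp t) (fun _ => GF.one) (fun _ => 0) 0 1 0 :=
  ⟨Real.exp_zero, rfl, rfl, fun e => Real.exp_pos e, fun _ => Vale.Agent.P352.isLor_one,
    by simpa using Real.hasDerivAt_exp 0, fun m n => hasDerivAt_const _ _,
    fun n => hasDerivAt_const _ _⟩

lemma Co.one_one : (fun m => sim 1 GF.one 0 (GF.one m)) = GF.one := by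
  funext m n
  simp only [sim, Pi.zero_apply, zero_add, one_mul]
  exact sum_one _ _

/-- dilations -/
theorem con_dil {A : (V → V) → D → D} (R : Rep Q A) {B : Fld D} (hB : Q.fld B) {f : Fn}
    (hf : GF.IsTest f) (v : D) : Continuous fun t : ℝ =>
      Q.U (Real.exp t) GF.one 0 (B (fun x => f (sim (Real.exp t) GF.one 0 x)) v) :=
  con R crv_dil (fun t e => Real.exp_add t e) (fun _ _ => one_one.symm) hB hf v

lemma Co.crv_lor (L0 : L 0 = GF.one) (hl : ∀ e, IsLor (L e))
    (dL : ∀ m n, HasDerivAt (fun e => L e m n) (w m n) 0) :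
    Crv (fun _ => 1) L (fun _ => 0) w 0 0 :=
  ⟨rfl, L0, rfl, fun _ => one_pos, hl, hasDerivAt_const _ _, dL, fun n => hasDerivAt_const _ _⟩

/-- one parameter groups of Lorentz transformations -/
theorem con_lor {A : (V → V) → D → D} (R : Rep Q A) (L0 : L 0 = GF.one) (hl : ∀ e, IsLor (L e))
    (dL : ∀ m n, HasDerivAt (fun e => L e m n) (w m n) 0)
    (hL : ∀ t e, L (t + e) = fun m => sim 1 (L t) 0 (L e m))
    {B : Fld D} (hB : Q.fld B) {f : Fn} (hf : GF.IsTest f) (v : D) :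
    Continuous fun t => Q.U 1 (L t) 0 (B (fun x => f (sim 1 (L t) 0 x)) v) :=
  con R (crv_lor L0 hl dL) (fun _ _ => (one_mul 1).symm) hL hB hf v

/-- curves of Lorentz transformations: the derivative is linear in the velocity -/
theorem der_lor {A : (V → V) → D → D} (R : Rep Q A) (L0 : L 0 = GF.one) (hl : ∀ e, IsLor (L e))
    (dL : ∀ m n, HasDerivAt (fun e => L e m n) (w m n) 0)
    {B : Fld D} (hB : Q.fld B) {f : Fn} (hf : GF.IsTest f) (v : D) :
    HasDerivAt (fun e => Q.U 1 (L e) 0 (B (fun x => f (sim 1 (L e) 0 x)) v))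
      (I • A (fun z n => ∑ m, z m * w m n) (B f v) +
        B (vf (fun z n => ∑ m, z m * w m n) f) v) 0 :=
  der_rep R (crv_lor L0 hl dL) (fun z n => by simp) hB hf v

end Vale.Agent.P352R.Cf

end
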