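import Vale.Agent.P352R.Cf.St
import Vale.Agent.P352R.Cf.Cnt

/-!
# P352R, block Cf, row DER: the derivative of a matrix element is linear in the velocity
-/

set_option linter.all false

noncomputable section

open Filter Topology SchwartzMap Complex
open scoped SchwartzMap

namespace Vale.Agent.P352R.Cf

open Vale.Agent.P352 Vale.Agent.P352.GF Vale.Agent.P352.H746 Vale.Agent.P352.H15
open Vale.Agent.P352.H246 Vale.Agent.P352.H496

namespace De

/-- the linear vector field of a matrix -/
def xw (w : Ix → V) : V → V := fun z n => ∑ m, z m * w m n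

/-- the projection on the Lie algebra -/
def pj (w : Ix → V) : Ix → V := fun m n => (w m n - GF.eta m * GF.eta n * w n m) / 2

lemma eta_sq (m : Ix) : GF.eta m * GF.eta m = 1 := by
  unfold GF.eta
  split_ifs <;> norm_num

lemma pj_as (w : Ix → V) (m n : Ix) : GF.eta n * pj w m n = -(GF.eta m * pj w n m) := by
  unfold pj
  linear_combination (-(GF.eta m * w n m) / 2) * eta_sq n - (GF.eta n * w m n / 2) * eta_sq m

lemma pj_eq {w : Ix → V} (h : ∀ m n, GF.eta n * w m n = -(GF.eta m * w n m)) : pj w = w := by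
  funext m n
  unfold pj
  linear_combination (-(GF.eta n) / 2) * h m n + (w m n / 2) * eta_sq n

lemma sim_pj (w : Ix → V) : IsSim 0 (xw (pj w)) :=
  ⟨0, pj w, pj_as w, fun z n => by simp [xw]⟩

lemma xw_add (w w' : Ix → V) (c : ℝ) :
    xw (pj (w + c • w')) = fun z => xw (pj w) z + c • xw (pj w') z := by
  funext z n
  simp only [xw, pj, Pi.add_apply, Pi.smul_apply, smul_eq_mul, Finset.mul_sum,
    ← Finset.sum_add_distrib]
  exact Finset.sum_congr rfl fun m _ => by ring

lemma vf_add (X X' : V → V) (t : ℝ) (f : Fn) :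
    vf (fun z => X z + t • X' z) f = fun x => vf X f x + (t : ℂ) * vf X' f x := by
  funext x
  simp only [vf, Pi.add_apply, Pi.smul_apply, smul_eq_mul, Finset.mul_sum,
    ← Finset.sum_add_distrib]
  refine Finset.sum_congr rfl fun n _ => ?_
  push_cast
  ring

lemma anti {L : ℝ → Ix → V} {w : Ix → V} (L0 : L 0 = GF.one) (hl : ∀ e, IsLor (L e))
    (dL : ∀ m n, HasDerivAt (fun e => L e m n) (w m n) 0) (m n : Ix) :
    GF.eta n * w m n = -(GF.eta m * w n m) := by
  have h1 := HasDerivAt.fun_sum (u := Finset.univ) fun k _ =>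
    ((dL m k).const_mul (GF.eta k)).fun_mul (dL n k)
  have h2 : (fun e => ∑ k, GF.eta k * L e m k * L e n k) = fun _ => bas m (GF.eta m) n :=
    funext fun e => (hl e).1 m n
  rw [h2] at h1
  have h3 := h1.unique (hasDerivAt_const _ _)
  simp only [L0, Finset.sum_add_distrib, GF.one, bas, mul_ite, ite_mul, mul_one, mul_zero,
    zero_mul, Finset.sum_ite_eq', Finset.mem_univ, if_true] at h3
  linear_combination h3

/-- functions that are linear in a matrix -/
lemma lin (φ : (Ix → V) → ℂ) (h : ∀ w w' (c : ℝ), φ (w + c • w') = φ w + c * φ w') :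
    ∃ S : Ix → Ix → ℂ, ∀ w, φ w = ∑ m, ∑ n, w m n * S m n := by
  have h0 : φ 0 = 0 := by
    have := h 0 0 1
    rw [smul_zero, add_zero] at this
    simpa using this
  let l : (Ix → V) →ₗ[ℝ] ℂ :=
    { toFun := φ
      map_add' := fun w w' => by simpa using h w w' 1
      map_smul' := fun c w => by simpa [h0] using h 0 w c }
  refine ⟨fun m n => φ (Pi.single m (Pi.single n 1)), fun w => ?_⟩
  have e : w = ∑ m, ∑ n, w m n • (Pi.single m (Pi.single n (1 : ℝ)) : Ix → V) := by
    funext m n
    simp [Finset.sum_apply, Pi.single_apply, ite_apply]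
  show l w = _
  conv_lhs => rw [e]
  simp only [map_sum, map_smul, real_smul]
  rfl

end De

open De

variable (D : Type*) [NormedAddCommGroup D] [InnerProductSpace ℂ D]

/-- **row DER** -/
theorem der : DER D := by
  intro Q A B f z hG hB hf
  obtain ⟨S, hS⟩ := lin (fun w => inner ℂ z (I • A (xw (pj w)) (B f Q.vac) +
      B (vf (xw (pj w)) f) Q.vac)) fun w w' c => by
    rw [xw_add, hG.add 0 0 c _ _ _ (sim_pj w) (sim_pj w'), vf_add,
      Q.lin _ _ _ _ _ hB (isTest_vf (sim_pj w) hf) (isTest_vf (sim_pj w') hf),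
      ← inner_smul_right, ← inner_add_right]
    congr 1
    module
  refine ⟨S, fun L w L0 hl dL => ?_⟩
  have K := Co.crv_lor L0 hl dL
  have hX : ∀ z n, xw w z n = (0 : V) n + 0 * z n + ∑ m, z m * w m n := fun z n => by simp [xw]
  have h1 := der_orb K hX (Y := fun v => I • A (xw w) v) (fun v =>
    hG.der _ L _ _ v K.s0 K.L0 K.a0 (fun e => ⟨K.sp e, K.lor e⟩) fun n x => K.dX hX n x)
    hB hf Q.vac
  rw [← hS, pj_eq (anti L0 hl dL)]
  exact ((innerSL ℂ z).restrictScalars ℝ).hasFDerivAt.comp_hasDerivAt (0 : ℝ) h1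

end Vale.Agent.P352R.Cf

end
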