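import Vale.Agent.P352R.Cf.Pub
import Vale.Agent.P352X.EG.Pub
import Vale.Agent.P352X.CL.Pub0
import Vale.Agent.P352L.Gd.Pub
import Vale.Agent.P352.BW.Lm

/-!
# P352R, block Cf: countably many covariant fields have finite Lorentz orbits (rows, helper22)
-/

set_option autoImplicit false
set_option linter.all false

namespace Vale.Agent.P352R.Cf

open Vale.Agent.P352 Vale.Agent.P352.GF Vale.Agent.P352X
open Vale.Agent.P352.H15 (IsSim)
open UniformSpace (Completion)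

section

variable {W : Type*} [AddCommGroup W] [Module ℂ W]

/-- a one parameter group up to sign, weakly continuous at the origin -/
structure Orb2 (ρ : ℝ → W →ₗ[ℂ] W) (Λ : Set (W →ₗ[ℂ] ℂ)) : Prop where
  zero : ρ 0 = 1
  add : ∀ s t, ρ (s + t) = ρ s * ρ t ∨ ρ (s + t) = -(ρ s * ρ t)
  sep : ∀ y, (∀ l ∈ Λ, l y = 0) → y = 0
  cont : ∀ y, ∀ l ∈ Λ, ContinuousAt (fun t => l (ρ t y)) 0

variable (W) in
/-- row FD2 (Baire, with signs) -/
def FD2 : Prop := ∀ (ρ : ℝ → W →ₗ[ℂ] W) Λ, Orb2 ρ Λ → Module.rank ℂ W ≤ Cardinal.aleph0 →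
  ∀ x, FiniteDimensional ℂ (Submodule.span ℂ (Set.range fun t => ρ t x))

/-- the product of Lorentz transformations -/
abbrev cp (L L' : Ix → V) : Ix → V := fun m => sim 1 L 0 (L' m)

/-- an action of the Lorentz group up to sign, weakly differentiable at the identity -/
structure Lact (ρ : (Ix → V) → W →ₗ[ℂ] W) (Λ : Set (W →ₗ[ℂ] ℂ)) : Prop where
  id : ρ one = 1
  mul : ∀ L L', IsLor L → IsLor L' → ρ (cp L L') = ρ L * ρ L' ∨ ρ (cp L L') = -(ρ L * ρ L')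
  sep : ∀ y, (∀ l ∈ Λ, l y = 0) → y = 0
  der : ∀ y, ∀ l ∈ Λ, ∃ S : Ix → Ix → ℂ, ∀ (L : ℝ → Ix → V) (w : Ix → V), L 0 = one →
    (∀ e, IsLor (L e)) → (∀ m n, HasDerivAt (fun e => L e m n) (w m n) 0) →
    HasDerivAt (fun e => l (ρ (L e) y)) (∑ m, ∑ n, w m n * S m n) 0

/-- the span of the Lorentz orbit -/
abbrev lo (ρ : (Ix → V) → W →ₗ[ℂ] W) (x : W) : Submodule ℂ W :=
  Submodule.span ℂ (Set.range fun L : {L // IsLor L} => ρ L x)

variable (W) in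
/-- row FO: the orbits are finite dimensional -/
def FO : Prop := ∀ (ρ : (Ix → V) → W →ₗ[ℂ] W) Λ, Lact ρ Λ → Module.rank ℂ W ≤ Cardinal.aleph0 →
  ∀ x, FiniteDimensional ℂ (lo ρ x)

variable (W) in
/-- row RP: the spin of a finite dimensional orbit -/
def RP : Prop := ∀ (ρ : (Ix → V) → W →ₗ[ℂ] W) Λ x, Lact ρ Λ → FiniteDimensional ℂ (lo ρ x) →
  ∃ (k : Rp) (y : Fin k.n → W) (c : Fin k.n → ℂ), x = ∑ a, c a • y a ∧
    ∀ L a, IsLor L → y a = ∑ b, k.ρ L b a • ρ L (y b)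

end

variable {D : Type*} [NormedAddCommGroup D] [InnerProductSpace ℂ D]

/-- the generators -/
structure Gn (Q : Theory D) (A : (V → V) → D → D) : Prop where
  add : ∀ r r' (c : ℝ) X X' v, IsSim r X → IsSim r' X' →
    A (fun z => X z + c • X' z) v = A X v + (c : ℂ) • A X' v
  der : P352L.Gnr Q A

variable (D) in
/-- row DER: the derivative of a matrix element -/
def DER : Prop := ∀ (Q : Theory D) A B f (z : D), Gn Q A → Q.fld B → IsTest f →
  ∃ S : Ix → Ix → ℂ, ∀ (L : ℝ → Ix → V) (w : Ix → V), L 0 = one →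
    (∀ e, IsLor (L e)) → (∀ m n, HasDerivAt (fun e => L e m n) (w m n) 0) →
    HasDerivAt (fun e => inner ℂ z (Q.U 1 (L e) 0 (B (fun x => f (sim 1 (L e) 0 x)) Q.vac)))
      (∑ m, ∑ n, w m n * S m n) 0

/-- a field of the space `K` that annihilates the vacuum vanishes -/
def Sp0 (Q : Theory D) (K : Submodule ℂ (Fld D)) : Prop :=
  ∀ B ∈ K, (∀ f, IsTest f → B f Q.vac = 0) → ∀ f v, IsTest f → B f v = 0

/-- a space of fields with a parity -/
structure Fw (Q : Theory D) (A : (V → V) → D → D) (K : Submodule ℂ (Fld D)) : Prop where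
  gn : Gn Q A
  fld : ∀ B ∈ K, Q.fld B
  cnt : ∃ S : Set (Fld D), S.Countable ∧ K ≤ Submodule.span ℂ S
  cov : ∀ L B, IsLor L → B ∈ K → ∃ C ∈ K, ∀ f v, IsTest f →
    Q.U 1 L 0 (B (fun x => f (sim 1 L 0 x)) v) = C f (Q.U 1 L 0 v)
  sep : Sp0 Q K
  mul : ∀ L L', IsLor L → IsLor L' → ∃ ε : ℂ, (ε = 1 ∨ ε = -1) ∧ ∀ B ∈ K, ∀ f, IsTest f →
    Q.U 1 (cp L L') 0 (B f Q.vac) = ε • Q.U 1 L 0 (Q.U 1 L' 0 (B f Q.vac))

variable (D) in
/-- row MF: multiplets -/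
def MF : Prop := ∀ (Q : Theory D) A K, Fw Q A K → ∀ B ∈ K, ∃ (n : ℕ) (C : Fin n → Fld D),
  (∀ i, ∃ k Φ a, IsMf Q k Φ ∧ C i = Φ a) ∧ ∀ f v, IsTest f → B f v = ∑ i, C i f v

variable (D) in
/-- row SEP, local nets -/
def SEP : Prop := ∀ (Q : Theory D) A N K, BW.LNm Q A N → (∀ B ∈ K, Q.fld B) → Sp0 Q K

variable (D) in
/-- row SEG, graded local nets -/
def SEG : Prop := ∀ (Q : Theory D) G A Γ N K, LNg Q G A Γ N → (∀ B ∈ K, Q.fld B) → Sp0 Q K

variable (D) in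
/-- the result for local nets -/
def CFB : Prop := ∀ (Q : Theory D) A N, BW.LNm Q A N → P.CntF Q → MfAll Q ∧ FSL Q

variable (D) in
/-- the result for graded local nets -/
def CFG : Prop := ∀ (Q : Theory D) G A Γ N, LNg Q G A Γ N → P.CntF Q → MfAll Q ∧ FSL Q

end Vale.Agent.P352R.Cf
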