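import Mathlib
import Vale.Agent.P352R.Cf.St

/-!
# P352R, block Cf: row FD2 (Baire category argument, with signs)
-/

set_option autoImplicit false
set_option linter.all false

namespace Vale.Agent.P352R.Cf

variable {W : Type*} [AddCommGroup W] [Module ℂ W]

theorem fd2_mem {ρ : ℝ → W →ₗ[ℂ] W} {Λ : Set (W →ₗ[ℂ] ℂ)} (O : Orb2 ρ Λ) (U : Submodule ℂ W)
    (s t : ℝ) (x : W) : ρ (s + t) x ∈ U ↔ ρ s (ρ t x) ∈ U := by
  rcases O.add s t with h | h
  · rw [h]
    rfl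
  · rw [h]
    exact U.neg_mem_iff

/-- the span of a short piece of the orbit -/
def fd2V (ρ : ℝ → W →ₗ[ℂ] W) (x : W) (δ : ℝ) : Submodule ℂ W :=
  Submodule.span ℂ ((fun t => ρ t x) '' {t : ℝ | |t| < δ})

theorem fd2V_mono (ρ : ℝ → W →ₗ[ℂ] W) (x : W) {a b : ℝ} (h : a ≤ b) :
    fd2V ρ x a ≤ fd2V ρ x b :=
  Submodule.span_mono (Set.image_mono fun t ht => lt_of_lt_of_le ht h)

theorem fd2_closed {ρ : ℝ → W →ₗ[ℂ] W} {Λ : Set (W →ₗ[ℂ] ℂ)} (O : Orb2 ρ Λ) (x : W)
    (U : Submodule ℂ W) [FiniteDimensional ℂ U] : IsClosed {t : ℝ | ρ t x ∈ U} := by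
  let J : W →ₗ[ℂ] (Λ → ℂ) := LinearMap.pi fun l : Λ => (l : W →ₗ[ℂ] ℂ)
  have hJ : Function.Injective J := by
    rw [← LinearMap.ker_eq_bot, LinearMap.ker_eq_bot']
    intro y hy
    exact O.sep y fun l hl => congrFun hy ⟨l, hl⟩
  have hU : IsClosed ((U.map J : Submodule ℂ (Λ → ℂ)) : Set (Λ → ℂ)) :=
    Submodule.closed_of_finiteDimensional _
  rw [← isOpen_compl_iff, isOpen_iff_mem_nhds]
  intro a ha
  have hc : ContinuousAt (fun t : ℝ => J (ρ t (ρ a x))) 0 :=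
    continuousAt_pi.2 fun l => O.cont _ l l.2
  have h0 : J (ρ 0 (ρ a x)) ∈ ((U.map J : Submodule ℂ (Λ → ℂ)) : Set (Λ → ℂ))ᶜ := by
    rintro ⟨y, hy, hyt⟩
    have h1 : y = ρ 0 (ρ a x) := hJ hyt
    rw [O.zero] at h1
    exact ha (show ρ a x ∈ U from (show y = ρ a x from h1) ▸ hy)
  have h2 := hc.eventually (hU.isOpen_compl.mem_nhds h0)
  have h3 : Filter.Tendsto (fun t : ℝ => t - a) (nhds a) (nhds 0) := by
    have : Continuous fun t : ℝ => t - a := continuous_id.sub continuous_const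
    simpa using this.tendsto a
  filter_upwards [h3.eventually h2] with t ht hm
  have h4 : ρ (t - a + a) x ∈ U := by
    rw [sub_add_cancel]
    exact hm
  exact ht (Submodule.mem_map_of_mem ((fd2_mem O U _ _ x).1 h4))

theorem fd2_local {ρ : ℝ → W →ₗ[ℂ] W} {Λ : Set (W →ₗ[ℂ] ℂ)} {S : Set W} (O : Orb2 ρ Λ) (x : W)
    (hS : S.Countable) (h : ∀ t, ρ t x ∈ Submodule.span ℂ S) :
    ∃ δ : ℝ, 0 < δ ∧ FiniteDimensional ℂ (fd2V ρ x δ) := by
  have hI : {F : Set W | F.Finite ∧ F ⊆ S}.Countable := Set.countable_setOf_finite_subset hS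
  haveI : Countable {F : Set W | F.Finite ∧ F ⊆ S} := hI.to_subtype
  let E : {F : Set W | F.Finite ∧ F ⊆ S} → Set ℝ :=
    fun F => {t : ℝ | ρ t x ∈ Submodule.span ℂ (F : Set W)}
  have hcl : ∀ F, IsClosed (E F) := by
    intro F
    haveI : FiniteDimensional ℂ (Submodule.span ℂ (F : Set W)) :=
      FiniteDimensional.span_of_finite ℂ F.2.1
    exact fd2_closed O x _
  have hcov : ⋃ F, E F = Set.univ := by
    refine Set.eq_univ_of_forall fun t => ?_
    obtain ⟨T, hT, ht⟩ := Submodule.mem_span_finite_of_mem_span (h t)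
    exact Set.mem_iUnion.2 ⟨⟨(T : Set W), T.finite_toSet, hT⟩, ht⟩
  obtain ⟨F, a, ha⟩ := nonempty_interior_of_iUnion_of_closed hcl hcov
  obtain ⟨δ, hδ, hb⟩ := Metric.mem_nhds_iff.1 (mem_interior_iff_mem_nhds.1 ha)
  refine ⟨δ, hδ, ?_⟩
  haveI : FiniteDimensional ℂ (Submodule.span ℂ (F : Set W)) :=
    FiniteDimensional.span_of_finite ℂ F.2.1
  have hle : fd2V ρ x δ ≤ (Submodule.span ℂ (F : Set W)).map (ρ (-a)) := by
    refine Submodule.span_le.2 ?_
    rintro _ ⟨t, ht, rfl⟩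
    have h1 : a + t ∈ E F := by
      apply hb
      rw [Metric.mem_ball, Real.dist_eq, add_sub_cancel_left]
      exact ht
    have h2 := (fd2_mem O ((Submodule.span ℂ (F : Set W)).map (ρ (-a))) (-a) (a + t) x).2
      (Submodule.mem_map_of_mem h1)
    rw [neg_add_cancel_left] at h2
    exact h2
  exact Submodule.finiteDimensional_of_le hle

theorem fd2_stable {ρ : ℝ → W →ₗ[ℂ] W} {x : W} {δ : ℝ} (hδ : 0 < δ)
    (h : FiniteDimensional ℂ (fd2V ρ x δ)) :
    ∃ ε : ℝ, 0 < ε ∧ FiniteDimensional ℂ (fd2V ρ x ε) ∧ fd2V ρ x (2 * ε) = fd2V ρ x ε := by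
  have key : ∀ (n : ℕ) (δ : ℝ), 0 < δ → FiniteDimensional ℂ (fd2V ρ x δ) →
      Module.finrank ℂ (fd2V ρ x δ) = n →
      ∃ ε : ℝ, 0 < ε ∧ FiniteDimensional ℂ (fd2V ρ x ε) ∧ fd2V ρ x (2 * ε) = fd2V ρ x ε := by
    intro n
    induction n using Nat.strong_induction_on with
    | _ n ih =>
      intro δ hδ hf hn
      have hle : fd2V ρ x (δ / 2) ≤ fd2V ρ x δ := fd2V_mono ρ x (by linarith)
      have hf2 : FiniteDimensional ℂ (fd2V ρ x (δ / 2)) := Submodule.finiteDimensional_of_le hle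
      by_cases he : fd2V ρ x (δ / 2) = fd2V ρ x δ
      · refine ⟨δ / 2, by linarith, hf2, ?_⟩
        rw [he]
        congr 1
        ring
      · have hlt : fd2V ρ x (δ / 2) < fd2V ρ x δ := lt_of_le_of_ne hle he
        have := Submodule.finrank_lt_finrank_of_lt hlt
        exact ih _ (hn ▸ this) (δ / 2) (by linarith) hf2 rfl
  exact key _ δ hδ h rfl

/-- the version with a countable set whose span contains the orbit -/
theorem fd2_set {ρ : ℝ → W →ₗ[ℂ] W} {Λ : Set (W →ₗ[ℂ] ℂ)} {S : Set W} (O : Orb2 ρ Λ) (x : W)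
    (hS : S.Countable) (h : ∀ t, ρ t x ∈ Submodule.span ℂ S) :
    FiniteDimensional ℂ (Submodule.span ℂ (Set.range fun t => ρ t x)) := by
  obtain ⟨δ, hδ, hf⟩ := fd2_local O x hS h
  obtain ⟨ε, hε, hfε, he⟩ := fd2_stable hδ hf
  have hinv : ∀ a : ℝ, |a| < ε → ∀ y ∈ fd2V ρ x ε, ρ a y ∈ fd2V ρ x ε := by
    intro a ha y hy
    have hle : (fd2V ρ x ε).map (ρ a) ≤ fd2V ρ x (2 * ε) := by
      rw [fd2V, Submodule.map_span]
      refine Submodule.span_le.2 ?_
      rintro _ ⟨_, ⟨t, ht, rfl⟩, rfl⟩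
      refine (fd2_mem O _ a t x).1 (Submodule.subset_span ⟨a + t, ?_, rfl⟩)
      have h1 : |t| < ε := ht
      have h2 := abs_add_le a t
      show |a + t| < 2 * ε
      linarith
    rw [← he]
    exact hle (Submodule.mem_map_of_mem (he ▸ hy))
  have hx : ρ 0 x ∈ fd2V ρ x ε := Submodule.subset_span ⟨0, by simpa using hε, rfl⟩
  have hn : ∀ a : ℝ, |a| < ε → ∀ n : ℕ, ρ (n * a) x ∈ fd2V ρ x ε := by
    intro a ha n
    induction n with
    | zero =>
      rw [Nat.cast_zero, zero_mul]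
      exact hx
    | succ n ih =>
      have e : ((n + 1 : ℕ) : ℝ) * a = a + n * a := by
        push_cast
        ring
      rw [e, fd2_mem O]
      exact hinv a ha _ ih
  have hall : ∀ t : ℝ, ρ t x ∈ fd2V ρ x ε := by
    intro t
    obtain ⟨n, hn'⟩ := exists_nat_gt (|t| / ε)
    have hn0 : (0 : ℝ) < n := lt_of_le_of_lt (div_nonneg (abs_nonneg t) hε.le) hn'
    have ha : |t / n| < ε := by
      rw [abs_div, abs_of_pos hn0, div_lt_iff₀ hn0]
      rw [div_lt_iff₀ hε] at hn'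
      linarith
    have e : (n : ℝ) * (t / n) = t := by field_simp
    have := hn _ ha n
    rwa [e] at this
  have hle : Submodule.span ℂ (Set.range fun t => ρ t x) ≤ fd2V ρ x ε := by
    refine Submodule.span_le.2 ?_
    rintro _ ⟨t, rfl⟩
    exact hall t
  exact Submodule.finiteDimensional_of_le hle

variable (W) in
theorem fd2 : FD2 W := by
  intro ρ Λ O hr x
  let b := Module.Basis.ofVectorSpace ℂ W
  have hc : (Set.range b).Countable := by
    have h1 : Cardinal.mk (Module.Basis.ofVectorSpaceIndex ℂ W) ≤ Cardinal.aleph0 := by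
      rw [b.mk_eq_rank'']
      exact hr
    haveI : Countable (Module.Basis.ofVectorSpaceIndex ℂ W) := Cardinal.mk_le_aleph0_iff.1 h1
    exact Set.countable_range b
  refine fd2_set O x hc fun t => ?_
  rw [b.span_eq]
  exact Submodule.mem_top

end Vale.Agent.P352R.Cf
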