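import Vale.Agent.P352H.Mat

/-!
# P352R, block Cf: the Lorentz group is a bounded product of null rotations (helper85)
-/

set_option autoImplicit false
set_option linter.all false

namespace Vale.Agent.P352R.Cf

open Vale.Agent.P352 Vale.Agent.P352.GF Vale.Agent.P352H Set
open Vale.Agent.P352X.CA (mm)
open Vale.Agent.P352X.CA.Mat (e0' e1 e2' e3 one_eq)
open Vale.Agent.P352X.CA.G.Rp0 (lor_mm mm_assoc mm_one one_mm)

/-- **induction on subsets of the Lorentz group** -/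
theorem dec (P : Set (Ix → V) → Prop) (pt : ∀ L, IsLor L → P {L})
    (np : P (range fun t => Np t 0)) (mul : ∀ A B, P A → P B → P (image2 mm A B))
    (un : ∀ A B, P A → P B → P (A ∪ B)) (mono : ∀ A B, A ⊆ B → P B → P A) :
    P {L | IsLor L} := by
  have w := pt _ wr_lor
  have n2 : P (range fun t => Np 0 t) := mono _ _ (by
    rintro _ ⟨v, rfl⟩
    exact ⟨_, ⟨_, rfl, _, ⟨v, rfl⟩, rfl⟩, _, rfl, (np_rot v).symm⟩)
    (mul _ _ (mul _ _ (pt _ (rr_lor (σ := -1) (by simp))) np) (pt _ (rr_lor (σ := 1) (by simp))))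
  have p : P {L | ∃ u v, L = Np u v} := mono _ _ (by
    rintro _ ⟨u, v, rfl⟩
    exact ⟨_, ⟨u, rfl⟩, _, ⟨v, rfl⟩, by rw [np_add, add_zero, zero_add]⟩) (mul _ _ np n2)
  have m : P {L | ∃ u v, L = Nm u v} := mono _ _ (by
    rintro _ ⟨u, v, rfl⟩
    exact ⟨_, ⟨_, rfl, _, ⟨_, _, rfl⟩, rfl⟩, _, rfl, (nm_eq u v).symm⟩) (mul _ _ (mul _ _ w p) w)
  have d : P {L | ∃ l c s, 0 < l ∧ c ^ 2 + s ^ 2 = 1 ∧ L = Dg l c s} := mono _ _ (by
    rintro _ ⟨l, c, s, hl, h, rfl⟩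
    obtain ⟨x, y, a, b, e⟩ := ex_pq hl h
    have k : x ^ 2 + y ^ 2 = l := by linear_combination a + b
    have := dg_eq (p := x) (q := y) (k ▸ hl.ne')
    rw [show (x ^ 2 - y ^ 2) / (x ^ 2 + y ^ 2) = c by
      rw [k, div_eq_iff hl.ne']; linear_combination a - b,
      show 2 * x * y / (x ^ 2 + y ^ 2) = s by
        rw [k, div_eq_iff hl.ne']; linear_combination 2 * e] at this
    exact ⟨_, rfl, _, ⟨_, ⟨_, ⟨_, _, rfl⟩, _, ⟨_, _, rfl⟩, rfl⟩, _, ⟨_, _, rfl⟩, rfl⟩,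
      this.symm.trans (by rw [k])⟩) (mul _ _ w (mul _ _ (mul _ _ p m) p))
  have g : P {L | IsLor L ∧ P352H.lam L ≠ 0} := mono _ _ (by
    rintro L ⟨h, hl⟩
    obtain ⟨a, b, c⟩ := gauss h hl rfl rfl rfl rfl rfl rfl
    exact ⟨_, ⟨_, ⟨_, _, rfl⟩, _, ⟨_, _, _, a, b, rfl⟩, rfl⟩, _, ⟨_, _, rfl⟩, c.symm⟩)
    (mul _ _ (mul _ _ p d) m)
  refine mono _ _ (fun L (h : IsLor L) => ?_) (un _ _ g (mul _ _ w g))
  by_cases hl : P352H.lam L = 0
  · refine .inr ⟨_, rfl, mm Wr L, ⟨lor_mm h wr_lor, fun k => ?_⟩, ?_⟩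
    · have h0 := h.1 0 0
      have hp : 0 < L 0 0 := h.2.1
      simp [md, bas, e0'] at h0
      simp only [P352H.lam] at hl k
      simp [mm, Wr, Fin.sum_univ_four] at k
      have : L 0 1 = -L 0 0 := by linarith
      rw [this] at h0
      nlinarith [mul_self_nonneg (L 0 2), mul_self_nonneg (L 0 3)]
    · funext m n
      fin_cases m <;> simp [mm, Wr, Fin.sum_univ_four]
  · exact .inl ⟨h, hl⟩

variable {W : Type*} [AddCommGroup W] [Module ℂ W]

theorem two {ρ : (Ix → V) → W →ₗ[ℂ] W} {F : Submodule ℂ W} {A B : Set (Ix → V)}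
    (st : ∀ L ∈ B, ∀ y ∈ F, ρ L y ∈ F)
    (a : ∀ y ∈ F, FiniteDimensional ℂ (Submodule.span ℂ ((fun L => ρ L y) '' A)))
    (b : ∀ y ∈ F, FiniteDimensional ℂ (Submodule.span ℂ ((fun L => ρ L y) '' B))) {y : W}
    (hy : y ∈ F) : ∃ S : Submodule ℂ W, FiniteDimensional ℂ S ∧
      ∀ L ∈ A, ∀ L' ∈ B, ρ L (ρ L' y) ∈ S := by
  obtain ⟨t, ht⟩ := (Submodule.fg_iff_finiteDimensional _).2 (b y hy)
  have hF : ∀ z ∈ t, z ∈ F := fun z hz =>
    (Submodule.span_le (p := F)).2 (by rintro _ ⟨L, h, rfl⟩; exact st L h y hy)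
      (ht ▸ Submodule.subset_span hz)
  have := fun z : t => a z (hF z z.2)
  refine ⟨⨆ z : t, Submodule.span ℂ ((fun L => ρ L z) '' A), inferInstance, fun L h L' h' => ?_⟩
  have k : ρ L' y ∈ Submodule.span ℂ (t : Set W) := ht ▸ Submodule.subset_span ⟨L', h', rfl⟩
  refine Submodule.span_induction (p := fun z _ => ρ L z ∈ _) (fun z hz => ?_) ?_ ?_ ?_ k
  · exact Submodule.mem_iSup_of_mem ⟨z, hz⟩ (Submodule.subset_span ⟨L, h, rfl⟩)
  · rw [map_zero]; exact zero_mem _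
  · intro u v _ _ i j; rw [map_add]; exact add_mem i j
  · intro c u _ i; rw [map_smul]; exact Submodule.smul_mem _ c i

/-- **finite orbits under the null rotations give finite orbits under the Lorentz group**; the
group law may hold in either order and up to a fixed map `γ`. -/
theorem fin_orbit (ρ : (Ix → V) → W →ₗ[ℂ] W) (γ : W →ₗ[ℂ] W) (F : Submodule ℂ W)
    (st : ∀ L, IsLor L → ∀ y ∈ F, ρ L y ∈ F)
    (hm : ∀ L L', IsLor L → IsLor L' → ∀ y ∈ F, ρ (mm L L') y = ρ L (ρ L' y) ∨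
      ρ (mm L L') y = ρ L' (ρ L y) ∨ ρ (mm L L') y = γ (ρ L (ρ L' y)) ∨
      ρ (mm L L') y = γ (ρ L' (ρ L y)))
    (np : ∀ y ∈ F, FiniteDimensional ℂ (Submodule.span ℂ (range fun t => ρ (Np t 0) y))) :
    ∀ y ∈ F, FiniteDimensional ℂ (Submodule.span ℂ ((fun L => ρ L y) '' {L | IsLor L})) := by
  refine (dec (fun A => (∀ L ∈ A, IsLor L) ∧
    ∀ y ∈ F, FiniteDimensional ℂ (Submodule.span ℂ ((fun L => ρ L y) '' A)))
    (fun L h => ⟨fun _ e => e ▸ h, fun y _ => ?_⟩) ⟨?_, fun y h => ?_⟩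
    (fun A B a b => ⟨?_, fun y h => ?_⟩) (fun A B a b => ⟨fun L h => h.elim (a.1 L) (b.1 L),
      fun y h => ?_⟩) fun A B h b => ⟨fun L k => b.1 L (h k), fun y k => ?_⟩).2
  · rw [image_singleton]; infer_instance
  · rintro _ ⟨t, rfl⟩; exact np_lor t 0
  · rw [← range_comp]; exact np y h
  · rintro _ ⟨L, h, L', h', rfl⟩; exact lor_mm (b.1 _ h') (a.1 _ h)
  · obtain ⟨S, s, k⟩ := two (fun L h => st L (b.1 L h)) a.2 b.2 h
    obtain ⟨S', s', k'⟩ := two (fun L h => st L (a.1 L h)) b.2 a.2 h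
    refine Submodule.finiteDimensional_of_le (S₂ := (S ⊔ S') ⊔ (S.map γ ⊔ S'.map γ))
      (Submodule.span_le.2 ?_)
    rintro _ ⟨_, ⟨L, i, L', j, rfl⟩, rfl⟩
    rcases hm L L' (a.1 L i) (b.1 L' j) y h with e | e | e | e <;> simp only [e]
    · exact Submodule.mem_sup_left (Submodule.mem_sup_left (k L i L' j))
    · exact Submodule.mem_sup_left (Submodule.mem_sup_right (k' L' j L i))
    · exact Submodule.mem_sup_right (Submodule.mem_sup_left ⟨_, k L i L' j, rfl⟩)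
    · exact Submodule.mem_sup_right (Submodule.mem_sup_right ⟨_, k' L' j L i, rfl⟩)
  · have := a.2 y h
    have := b.2 y h
    rw [image_union, Submodule.span_union]; infer_instance
  · have := b.2 y k
    exact Submodule.finiteDimensional_of_le (Submodule.span_mono (image_mono h))

end Vale.Agent.P352R.Cf
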