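import Vale.Agent.P352R.Cf.St
import Vale.Agent.P352R.Cf.Dc

/-!
# P352R, block Cf, row FO: the Lorentz orbits are finite dimensional
-/

set_option autoImplicit false
set_option linter.all false

namespace Vale.Agent.P352R.Cf

open Vale.Agent.P352 Vale.Agent.P352.GF Vale.Agent.P352H Set
open Vale.Agent.P352X.CA (mm)

theorem fo_cp (L L' : Ix → V) : cp L L' = mm L' L := by
  funext m n
  simp [cp, sim, mm]

theorem fo {W : Type*} [AddCommGroup W] [Module ℂ W] (fd : FD2 W) : FO W := by
  intro ρ Λ h hr x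
  have o : Orb2 (fun t => ρ (Np t 0)) Λ := by
    refine ⟨by simp only [np_zero, h.id], fun s t => ?_, h.sep, fun y l hl => ?_⟩
    · have := h.mul (Np s 0) (Np t 0) (np_lor _ _) (np_lor _ _)
      rwa [fo_cp, np_add, add_zero, add_comm t s] at this
    · obtain ⟨S, hS⟩ := h.der y l hl
      exact (hS (fun e => Np e 0) wn np_zero (fun e => np_lor e 0) np_der).continuousAt
  have k := fin_orbit ρ (-1) ⊤ (fun _ _ _ _ => Submodule.mem_top) (fun L L' a b y _ => by
    rcases h.mul L' L b a with e | e <;> rw [fo_cp] at e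
    · exact .inr (.inl (by rw [e]; rfl))
    · exact .inr (.inr (.inr (by rw [e]; rfl)))) (fun y _ => fd _ Λ o hr y) x Submodule.mem_top
  refine Submodule.finiteDimensional_of_le (S₂ := Submodule.span ℂ
    ((fun L => ρ L x) '' {L | IsLor L})) (Submodule.span_mono ?_)
  rintro _ ⟨L, rfl⟩
  exact ⟨L.1, L.2, rfl⟩

end Vale.Agent.P352R.Cf
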