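import Vale.Agent.P352R.Cf.St
import Vale.Agent.P352R.Ct.App0
import Vale.Agent.P352.BW.U

/-!
# P352R, block Cf, row MF: the fields of a covariant space of countable dimension are sums of
components of multiplets (helper71)
-/

set_option autoImplicit false
set_option linter.all false

noncomputable section

namespace Vale.Agent.P352R.Cf

open Vale.Agent.P352 Vale.Agent.P352.GF Vale.Agent.P352X Vale.Agent.P352.H246
open Vale.Agent.P352R.Ct (Wv rs ac ac_rs)

universe u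

variable {D : Type u} [NormedAddCommGroup D] [InnerProductSpace ℂ D] {Q : Theory D}
  {A : (V → V) → D → D} {K : Submodule ℂ (Fld D)}

/-- a Lorentz covariant space of fields of countable dimension -/
structure Kc (Q : Theory D) (K : Submodule ℂ (Fld D)) : Prop where
  fld : ∀ B ∈ K, Q.fld B
  cnt : ∃ S : Set (Fld D), S.Countable ∧ K ≤ Submodule.span ℂ S
  cov : ∀ L B, IsLor L → B ∈ K → ∃ C ∈ K, ∀ f v, GF.IsTest f →
    Q.U 1 L 0 (B (fun x => f (sim 1 L 0 x)) v) = C f (Q.U 1 L 0 v)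
  sep : Sp0 Q K

theorem Fw.kc (h : Fw Q A K) : Kc Q K := ⟨h.fld, h.cnt, h.cov, h.sep⟩

/-- the vectors made by the fields of `K` from the vacuum -/
abbrev Wk (Q : Theory D) (K : Submodule ℂ (Fld D)) : Type u := ↥(K.map (rs Q))

theorem Kc.mem (h : Kc Q K) {L : Ix → V} (hL : IsLor L) (ψ : Wv D) (k : ψ ∈ K.map (rs Q)) :
    ac Q one_pos hL ψ ∈ K.map (rs Q) := by
  obtain ⟨B, hB, rfl⟩ := k
  obtain ⟨C, c1, c2⟩ := h.cov L B hL hB
  exact ⟨C, c1, (ac_rs one_pos hL c2).symm⟩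

open Classical in
/-- the action of the Lorentz group -/
def Kc.sg (h : Kc Q K) (L : Ix → V) : Wk Q K →ₗ[ℂ] Wk Q K :=
  if hL : IsLor L then (ac Q one_pos hL).restrict (h.mem hL) else 1

theorem Kc.sg_val (h : Kc Q K) {L : Ix → V} (hL : IsLor L) (ψ : Wk Q K) :
    (h.sg L ψ).1 = ac Q one_pos hL ψ.1 := by
  rw [Kc.sg, dif_pos hL]
  rfl

theorem Kc.sg_app (h : Kc Q K) {L : Ix → V} (hL : IsLor L) (ψ : Wk Q K) (f) :
    (h.sg L ψ).1 f =
      Q.U 1 L 0 (ψ.1 ⟨fun x => f.1 (sim 1 L 0 x), Ap.test_sim one_pos hL 0 f.2⟩) := by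
  rw [h.sg_val hL]
  rfl

/-- the matrix elements -/
def Lk (Q : Theory D) (K : Submodule ℂ (Fld D)) : Set (Wk Q K →ₗ[ℂ] ℂ) :=
  {l | ∃ w f, ∀ ψ, l ψ = inner ℂ w (ψ.1 f)}

theorem Kc.rank (h : Kc Q K) : Module.rank ℂ (Wk Q K) ≤ Cardinal.aleph0 := by
  obtain ⟨S, s1, s2⟩ := h.cnt
  refine (rank_map_le _ _).trans ((Submodule.rank_mono s2).trans ((rank_span_le S).trans ?_))
  exact Cardinal.le_aleph0_iff_set_countable.2 s1

theorem Kc.sg_one (h : Kc Q K) : h.sg GF.one = 1 := by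
  refine LinearMap.ext fun ψ => Subtype.ext (funext fun f => ?_)
  rw [h.sg_app H496.isLor_one]
  refine (U1_zero_all (Q := Q) _).trans (congrArg ψ.1 (Subtype.ext (funext fun x => ?_)))
  refine congrArg f.1 (funext fun n => ?_)
  simp [sim, GF.one, bas]

theorem lk_sep (ψ : Wk Q K) (h : ∀ l ∈ Lk Q K, l ψ = 0) : ψ = 0 :=
  Subtype.ext (funext fun f => ext_inner_left ℂ fun v =>
    (h (((innerₛₗ ℂ v).comp (LinearMap.proj f)).comp (K.map (rs Q)).subtype)
      ⟨v, f, fun _ => rfl⟩).trans (inner_zero_right _).symm)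

theorem Kc.sg_mul (h : Kc Q K) {L L' : Ix → V} (hL : IsLor L) (hL' : IsLor L') (ε : ℂ)
    (m : ∀ B ∈ K, ∀ f, GF.IsTest f →
      Q.U 1 (cp L L') 0 (B f Q.vac) = ε • Q.U 1 L 0 (Q.U 1 L' 0 (B f Q.vac))) :
    h.sg (cp L L') = ε • (h.sg L * h.sg L') := by
  refine LinearMap.ext fun ψ => Subtype.ext (funext fun f => ?_)
  obtain ⟨_, B, hB, rfl⟩ := ψ
  have e : (fun x => f.1 (sim 1 (cp L L') 0 x)) =
      fun x => f.1 (sim 1 L 0 (sim 1 L' 0 x)) := by
    funext x
    rw [Ct.sim_sim, mul_one]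
  rw [h.sg_app (BW.ue_lor hL hL')]
  refine (m B hB _ (Ap.test_sim one_pos (BW.ue_lor hL hL') 0 f.2)).trans ?_
  show _ = ε • (h.sg L (h.sg L' _)).1 f
  rw [h.sg_app hL, h.sg_app hL', e]
  rfl

theorem Kc.isMf (h : Kc Q K) (k : Rp) (Φ : Fin k.n → Fld D) (hΦ : ∀ a, Φ a ∈ K)
    (rel : ∀ L a (hL : IsLor L),
      rs Q (Φ a) = ∑ b, k.ρ L b a • ac Q one_pos hL (rs Q (Φ b))) : IsMf Q k Φ := by
  refine ⟨fun a => h.fld _ (hΦ a), fun a L f v hL hf => ?_⟩
  choose C c1 c2 using fun b => h.cov L (Φ b) hL (hΦ b)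
  have := h.sep _ (K.sub_mem (hΦ a) (K.sum_mem (t := Finset.univ) fun b _ =>
    K.smul_mem (k.ρ L b a) (c1 b))) (fun g hg => by
      have := congrFun (rel L a hL) ⟨g, hg⟩
      simp only [fun b => ac_rs one_pos hL (c2 b), ← map_smul, ← map_sum] at this
      exact sub_eq_zero.2 this) f (Q.U 1 L 0 v) hf
  simp only [Pi.sub_apply, Finset.sum_apply, Pi.smul_apply, sub_eq_zero] at this
  simp only [this, c2 _ f v hf]

/-- **multiplets from the action on the vectors** -/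
theorem Kc.mf_of (h : Kc Q K) (fo : FO (Wk Q K)) (rp : RP (Wk Q K))
    (hl : Lact h.sg (Lk Q K)) (B : Fld D) (hB : B ∈ K) : ∃ (n : ℕ) (C : Fin n → Fld D),
      (∀ i, ∃ k Φ a, IsMf Q k Φ ∧ C i = Φ a) ∧ ∀ f v, GF.IsTest f → B f v = ∑ i, C i f v := by
  obtain ⟨k, y, c, e1, e2⟩ := rp _ _ ⟨rs Q B, B, hB, rfl⟩ hl (fo _ _ hl h.rank _)
  choose Φ p1 p2 using fun a => (y a).2
  refine ⟨k.n, fun i => c i • Φ i, fun i => ⟨k, fun a => c i • Φ a, i,
    h.isMf k _ (fun a => K.smul_mem _ (p1 a)) fun L a hL => ?_, rfl⟩, fun f v hf => ?_⟩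
  · have := congrArg (K.map (rs Q)).subtype (e2 L a hL)
    simp only [map_sum, map_smul, Submodule.subtype_apply, h.sg_val hL] at this
    simp only [map_smul, p2]
    rw [this, Finset.smul_sum]
    exact Finset.sum_congr rfl fun b _ => smul_comm _ _ _
  · have e := congrArg (K.map (rs Q)).subtype e1
    simp only [map_sum, map_smul, Submodule.subtype_apply, ← p2] at e
    have := h.sep _ (K.sub_mem hB (K.sum_mem (t := Finset.univ) fun b _ =>
      K.smul_mem (c b) (p1 b))) (fun g hg => by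
        have := congrFun e ⟨g, hg⟩
        simp only [← map_smul, ← map_sum] at this
        exact sub_eq_zero.2 this) f v hf
    simpa only [Pi.sub_apply, Finset.sum_apply, sub_eq_zero] using this

theorem Fw.lact (h : Fw Q A K) (der : DER D) : Lact h.kc.sg (Lk Q K) where
  id := h.kc.sg_one
  mul L L' hL hL' := by
    obtain ⟨ε, e, m⟩ := h.mul L L' hL hL'
    have := h.kc.sg_mul hL hL' ε m
    rcases e with rfl | rfl
    · exact .inl (this.trans (one_smul _ _))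
    · exact .inr (this.trans (LinearMap.ext fun y => Subtype.ext
        (neg_one_smul ℂ ((h.kc.sg L * h.kc.sg L') y).1)))
  sep := lk_sep
  der := by
    rintro ⟨_, B, hB, rfl⟩ l ⟨z, f, e⟩
    obtain ⟨S, hS⟩ := der Q A B f.1 z h.gn (h.fld B hB) f.2
    refine ⟨S, fun L w L0 hL dL => ?_⟩
    have := hS L w L0 hL dL
    simp only [e, fun t => h.kc.sg_app (hL t)]
    exact this

/-- **row MF** -/
theorem mf (fo : ∀ (W : Type u) [AddCommGroup W] [Module ℂ W], FO W)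
    (rp : ∀ (W : Type u) [AddCommGroup W] [Module ℂ W], RP W) (der : DER D) : MF D :=
  fun _ _ _ h B hB => h.kc.mf_of (fo _) (rp _) (h.lact der) B hB

end Vale.Agent.P352R.Cf
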