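import Vale.Agent.P352R.Cf.St

/-!
# P352R, block Cf, row RP: the spin of a finite dimensional Lorentz orbit (helper1)
-/

set_option autoImplicit false
set_option linter.all false

namespace Vale.Agent.P352R.Cf

open Vale.Agent.P352 Vale.Agent.P352.GF Vale.Agent.P352X
open Filter Topology

namespace Rpp

lemma dmul {f g : ℝ → ℂ} {g' : ℂ} (hf : ContinuousAt f 0) (hg : HasDerivAt g g' 0)
    (h0 : g 0 = 0) : HasDerivAt (fun e => f e * g e) (f 0 * g') 0 := by
  rw [hasDerivAt_iff_tendsto_slope] at hg ⊢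
  refine ((hf.tendsto.mono_left nhdsWithin_le_nhds).mul hg).congr fun e => ?_
  simp only [slope, h0, mul_zero, vsub_eq_sub, sub_zero, Complex.real_smul]
  ring

lemma dinv {n : ℕ} {M : ℝ → Matrix (Fin n) (Fin n) ℂ} {M' : Matrix (Fin n) (Fin n) ℂ}
    (h0 : M 0 = 1) (hu : ∀ e, IsUnit (M e).det)
    (hd : ∀ a b, HasDerivAt (fun e => M e a b) (M' a b) 0) (a b : Fin n) :
    HasDerivAt (fun e => (M e)⁻¹ a b) (-M' a b) 0 := by
  have hc : ContinuousAt M 0 :=
    continuousAt_pi.2 fun a => continuousAt_pi.2 fun b => (hd a b).continuousAt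
  have hi : ContinuousAt (fun e => (M e)⁻¹) 0 := by
    refine ContinuousAt.comp (g := Inv.inv) (continuousAt_matrix_inv _ ?_) hc
    rw [h0, Matrix.det_one, Ring.inverse_eq_inv']
    exact continuousAt_inv₀ one_ne_zero
  have hi' : ∀ c, ContinuousAt (fun e => (M e)⁻¹ a c) 0 := fun c =>
    continuousAt_pi.1 (continuousAt_pi.1 hi a) c
  have e : (fun e => (M e)⁻¹ a b) = fun e => (1 : Matrix (Fin n) (Fin n) ℂ) a b +
      ∑ c, (M e)⁻¹ a c * ((1 : Matrix (Fin n) (Fin n) ℂ) c b - M e c b) := by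
    funext e
    have h : (M e)⁻¹ = 1 + (M e)⁻¹ * (1 - M e) := by
      rw [mul_sub, mul_one, Matrix.nonsing_inv_mul _ (hu e), add_sub_cancel]
    have h2 := congrFun (congrFun h a) b
    rw [h2, Matrix.add_apply, Matrix.mul_apply]
    rfl
  rw [e]
  have h1 := HasDerivAt.fun_sum (u := Finset.univ) fun c _ =>
    dmul (hi' c) ((hd c b).const_sub ((1 : Matrix (Fin n) (Fin n) ℂ) c b)) (by rw [h0, sub_self])
  have h2 : ∑ c, (M 0)⁻¹ a c * -M' c b = -M' a b := by
    rw [h0, inv_one]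
    have h3 := congrFun (congrFun (one_mul (-M')) a) b
    rw [Matrix.mul_apply] at h3
    exact h3
  rw [h2] at h1
  exact h1.const_add _

lemma lor_cp {L L' : Ix → V} (hL : IsLor L) (hL' : IsLor L') : IsLor (cp L L') := by
  have e : cp L L' = H246.lmul L' L := by
    funext m n
    simp [sim, H246.lmul]
  rw [e]
  exact H246.isLor_lmul hL' hL

variable {W : Type*} [AddCommGroup W] [Module ℂ W] {ρ : (Ix → V) → W →ₗ[ℂ] W}
  {Λ : Set (W →ₗ[ℂ] ℂ)}

lemma lo_inv (h : Lact ρ Λ) (x : W) {L : Ix → V} (hL : IsLor L) :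
    ∀ y ∈ lo ρ x, ρ L y ∈ lo ρ x := by
  intro y hy
  refine Submodule.span_induction (p := fun y _ => ρ L y ∈ lo ρ x) ?_ ?_ ?_ ?_ hy
  · rintro _ ⟨L', rfl⟩
    have hm : ρ (cp L L') x ∈ lo ρ x := Submodule.subset_span ⟨⟨_, lor_cp hL L'.2⟩, rfl⟩
    rcases h.mul L L' hL L'.2 with e | e
    · rw [e] at hm
      exact hm
    · rw [e] at hm
      exact (Submodule.neg_mem_iff _).1 hm
  · rw [map_zero]
    exact Submodule.zero_mem _
  · intro y z _ _ hy hz
    rw [map_add]
    exact Submodule.add_mem _ hy hz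
  · intro c y _ hy
    rw [map_smul]
    exact Submodule.smul_mem _ c hy

open Classical in
/-- the restriction to the orbit -/
noncomputable def rs (h : Lact ρ Λ) (x : W) (L : Ix → V) : lo ρ x →ₗ[ℂ] lo ρ x :=
  if hL : IsLor L then (ρ L).restrict (lo_inv h x hL) else 1

lemma rs_coe (h : Lact ρ Λ) (x : W) {L : Ix → V} (hL : IsLor L) (y : lo ρ x) :
    (rs h x L y : W) = ρ L y := by
  rw [rs, dif_pos hL]
  rfl

lemma rs_one (h : Lact ρ Λ) (x : W) : rs h x one = 1 := by
  ext y
  rw [rs_coe h x H496.isLor_one, h.id]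
  rfl

lemma rs_mul (h : Lact ρ Λ) (x : W) {L L' : Ix → V} (hL : IsLor L) (hL' : IsLor L') :
    rs h x (cp L L') = rs h x L * rs h x L' ∨ rs h x (cp L L') = -(rs h x L * rs h x L') := by
  refine (h.mul L L' hL hL').imp (fun e => ?_) fun e => ?_
  · ext y
    rw [rs_coe h x (lor_cp hL hL'), e, Module.End.mul_apply, Module.End.mul_apply, rs_coe h x hL,
      rs_coe h x hL']
  · ext y
    rw [rs_coe h x (lor_cp hL hL'), e, LinearMap.neg_apply, LinearMap.neg_apply,
      Submodule.coe_neg, Module.End.mul_apply, Module.End.mul_apply, rs_coe h x hL, rs_coe h x hL']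

lemma rs_der (h : Lact ρ Λ) (x : W) [FiniteDimensional ℂ (lo ρ x)] (y : lo ρ x)
    (l : Module.Dual ℂ (lo ρ x)) : ∃ S : Ix → Ix → ℂ, ∀ (L : ℝ → Ix → V) (w : Ix → V),
      L 0 = one → (∀ e, IsLor (L e)) → (∀ m n, HasDerivAt (fun e => L e m n) (w m n) 0) →
      HasDerivAt (fun e => l (rs h x (L e) y)) (∑ m, ∑ n, w m n * S m n) 0 := by
  have ht : Submodule.span ℂ ((fun l : W →ₗ[ℂ] ℂ => (l ∘ₗ (lo ρ x).subtype :
      Module.Dual ℂ (lo ρ x))) '' Λ) = ⊤ := by
    rw [← Subspace.dualCoannihilator_dualAnnihilator_eq (W := Submodule.span ℂ _)]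
    have e : (Submodule.span ℂ ((fun l : W →ₗ[ℂ] ℂ => (l ∘ₗ (lo ρ x).subtype :
        Module.Dual ℂ (lo ρ x))) '' Λ)).dualCoannihilator = ⊥ := by
      rw [eq_bot_iff]
      intro z hz
      rw [Submodule.mem_dualCoannihilator] at hz
      have : (z : W) = 0 := h.sep z fun l hl => hz _ (Submodule.subset_span ⟨l, hl, rfl⟩)
      exact Subtype.ext this
    rw [e, Submodule.dualAnnihilator_bot]
  have hl : l ∈ Submodule.span ℂ ((fun l : W →ₗ[ℂ] ℂ => (l ∘ₗ (lo ρ x).subtype :
      Module.Dual ℂ (lo ρ x))) '' Λ) := ht ▸ Submodule.mem_top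
  induction hl using Submodule.span_induction with
  | mem l hl =>
    obtain ⟨l, hl, rfl⟩ := hl
    obtain ⟨S, hS⟩ := h.der y l hl
    refine ⟨S, fun L w h0 hL hw => ?_⟩
    have e : (fun e => (l ∘ₗ (lo ρ x).subtype) (rs h x (L e) y)) = fun e => l (ρ (L e) y) := by
      funext e
      rw [← rs_coe h x (hL e)]
      rfl
    exact e ▸ hS L w h0 hL hw
  | zero =>
    refine ⟨0, fun L w _ _ _ => ?_⟩
    simpa using hasDerivAt_const (0 : ℝ) (0 : ℂ)
  | add l l' _ _ h1 h2 =>
    obtain ⟨S, hS⟩ := h1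
    obtain ⟨S', hS'⟩ := h2
    refine ⟨S + S', fun L w h0 hL hw => ?_⟩
    have h3 := (hS L w h0 hL hw).fun_add (hS' L w h0 hL hw)
    simp only [Pi.add_apply, mul_add, Finset.sum_add_distrib, LinearMap.add_apply]
    exact h3
  | smul c l _ h1 =>
    obtain ⟨S, hS⟩ := h1
    refine ⟨c • S, fun L w h0 hL hw => ?_⟩
    have h3 := (hS L w h0 hL hw).const_mul c
    simp only [Pi.smul_apply, LinearMap.smul_apply, smul_eq_mul]
    have e : ∑ m, ∑ n, (w m n : ℂ) * (c * S m n) = c * ∑ m, ∑ n, (w m n : ℂ) * S m n := by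
      simp only [Finset.mul_sum]
      exact Finset.sum_congr rfl fun m _ => Finset.sum_congr rfl fun n _ => by ring
    rw [e]
    exact h3

end Rpp

open Rpp in
theorem rp (W : Type*) [AddCommGroup W] [Module ℂ W] : RP W := by
  intro ρ Λ x h hf
  let b := Module.finBasis ℂ (lo ρ x)
  let M : (Ix → V) → Matrix _ _ ℂ := fun L => LinearMap.toMatrix b b (rs h x L)
  have M1 : M one = 1 := by
    show LinearMap.toMatrix b b (rs h x one) = 1
    rw [rs_one, LinearMap.toMatrix_one]
  have Mm : ∀ L L', IsLor L → IsLor L' → M (cp L L') = M L * M L' ∨ M (cp L L') = -(M L * M L') := by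
    intro L L' hL hL'
    refine (rs_mul h x hL hL').imp (fun e => ?_) fun e => ?_
    · show LinearMap.toMatrix b b _ = _
      rw [e, LinearMap.toMatrix_mul]
    · show LinearMap.toMatrix b b _ = _
      rw [e, map_neg, LinearMap.toMatrix_mul]
  have Mu : ∀ L, IsLor L → IsUnit (M L).det := by
    intro L hL
    have h1 := Mm L _ hL (H246.isLor_linv hL)
    rw [show cp L (H246.linv L) = one from H755.linv_id hL, M1] at h1
    rcases h1 with e | e
    · exact Matrix.isUnit_det_of_right_inverse e.symm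
    · rw [← mul_neg] at e
      exact Matrix.isUnit_det_of_right_inverse e.symm
  choose S hS using fun a c => rs_der h x (b c) (b.coord a)
  refine ⟨⟨_, fun L => (M L)⁻¹, fun m n => Matrix.of fun a c => -S a c m n, ?_, ?_, ?_⟩,
    fun a => b a, fun a => b.repr ⟨x, ?_⟩ a, ?_, ?_⟩
  · show (M one)⁻¹ = 1
    rw [M1, inv_one]
  · intro L L' hL hL'
    refine (Mm L L' hL hL').imp (fun e => ?_) fun e => ?_
    · show (M (cp L L'))⁻¹ = _
      rw [e, Matrix.mul_inv_rev]
    · show (M (cp L L'))⁻¹ = _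
      rw [e]
      refine Matrix.inv_eq_right_inv ?_
      rw [neg_mul_neg, ← Matrix.mul_inv_rev, Matrix.mul_nonsing_inv]
      rw [Matrix.det_mul]
      exact (Mu L hL).mul (Mu L' hL')
  · intro L w a c h0 hL hw
    have h1 := dinv (M := fun e => M (L e)) (M' := Matrix.of fun a c => ∑ m, ∑ n, w m n * S a c m n)
      (by rw [h0, M1]) (fun e => Mu _ (hL e)) (fun a c => by
        have h2 := hS a c L w h0 hL hw
        simp only [M, LinearMap.toMatrix_apply, Matrix.of_apply]
        exact h2) a c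
    simp only [Matrix.of_apply, mul_neg, Finset.sum_neg_distrib] at h1 ⊢
    exact h1
  · have h1 : ρ one x ∈ lo ρ x := Submodule.subset_span ⟨⟨_, H496.isLor_one⟩, rfl⟩
    rw [h.id] at h1
    exact h1
  · have h1 := congrArg Subtype.val (b.sum_repr ⟨x, by
      have h1 : ρ one x ∈ lo ρ x := Submodule.subset_span ⟨⟨_, H496.isLor_one⟩, rfl⟩
      rw [h.id] at h1
      exact h1⟩)
    simp only [Submodule.coe_sum, Submodule.coe_smul] at h1
    exact h1.symm
  · intro L a hL
    have h1 : ∀ c, rs h x L (b c) = ∑ d, M L d c • b d := fun c => by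
      simp only [M, LinearMap.toMatrix_apply]
      exact (b.sum_repr _).symm
    have h2 : b a = ∑ c, (M L)⁻¹ c a • rs h x L (b c) := by
      simp only [h1, Finset.smul_sum, smul_smul]
      rw [Finset.sum_comm]
      have h3 : ∀ d, ∑ c, ((M L)⁻¹ c a * M L d c) • b d = (1 : Matrix _ _ ℂ) d a • b d := by
        intro d
        rw [← Finset.sum_smul, ← Matrix.mul_nonsing_inv _ (Mu L hL), Matrix.mul_apply]
        simp only [mul_comm]
      simp only [h3, Matrix.one_apply, ite_smul, one_smul, zero_smul, Finset.sum_ite_eq',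
        Finset.mem_univ, if_true]
    have h4 := congrArg Subtype.val h2
    simp only [Submodule.coe_sum, Submodule.coe_smul, rs_coe h x hL] at h4
    exact h4

end Vale.Agent.P352R.Cf
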