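import Vale.Agent.P352R.Cf.Cfb
import Vale.Agent.P352R.Cf.Mf
import Vale.Agent.P352R.Cf.Fo
import Vale.Agent.P352R.Cf.Fd2
import Vale.Agent.P352R.Cf.Rp
import Vale.Agent.P352R.Cf.Der

/-!
# P352R, block Cf: the results without row hypotheses (helper14)
-/

set_option autoImplicit false
set_option linter.all false

namespace Vale.Agent.P352R.Cf

variable {D : Type*} [NormedAddCommGroup D] [InnerProductSpace ℂ D]

theorem mf_all : MF D := mf (fun W _ _ => fo (fd2 W)) (fun W _ _ => rp W) (der D)

theorem cfb_all : CFB D := cfb mf_all sep_row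

theorem cfg_all : CFG D := cfg mf_all seg_row

end Vale.Agent.P352R.Cf
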