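import Vale.Agent.P352R.Cf.St
import Vale.Agent.P352H.Mat
import Vale.Agent.P352NA.Pub

/-!
# P352R, block Cf: continuity instead of differentiability (rows, helper22)
-/

set_option autoImplicit false
set_option linter.all false

namespace Vale.Agent.P352R.Cf

open Vale.Agent.P352 Vale.Agent.P352.GF Vale.Agent.P352X

section

variable {W : Type*} [AddCommGroup W] [Module ℂ W]

/-- an action of the Lorentz group, weakly continuous along the null rotations -/
structure Lc (ρ : (Ix → V) → W →ₗ[ℂ] W) (Λ : Set (W →ₗ[ℂ] ℂ)) : Prop where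
  id : ρ one = 1
  mul : ∀ L L', IsLor L → IsLor L' → ρ (cp L L') = ρ L * ρ L'
  sep : ∀ y, (∀ l ∈ Λ, l y = 0) → y = 0
  cont : ∀ y, ∀ l ∈ Λ, ContinuousAt (fun t => l (ρ (P352H.Np t 0) y)) 0

variable (W) in
/-- row LD: continuous actions on spaces of countable dimension are differentiable -/
def LD : Prop := ∀ (ρ : (Ix → V) → W →ₗ[ℂ] W) Λ, Lc ρ Λ → Module.rank ℂ W ≤ Cardinal.aleph0 →
  Lact ρ Λ

end

/-- row POL: the matrix elements are differentiable along curves -/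
def POL : Prop := ∀ (n : ℕ) (M : (Ix → V) → Matrix (Fin n) (Fin n) ℂ), M one = 1 →
  (∀ L L', IsLor L → IsLor L' → M (cp L L') = M L * M L') →
  (∀ a b, ContinuousAt (fun t => M (P352H.Np t 0) a b) 0) → ∀ a b,
  ∃ S : Ix → Ix → ℂ, ∀ (L : ℝ → Ix → V) (w : Ix → V), L 0 = one →
    (∀ e, IsLor (L e)) → (∀ m n, HasDerivAt (fun e => L e m n) (w m n) 0) →
    HasDerivAt (fun e => M (L e) a b) (∑ m, ∑ n, w m n * S m n) 0

variable {D : Type*} [NormedAddCommGroup D] [InnerProductSpace ℂ D]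

/-- a strongly continuous representation -/
structure Cr (Q : Theory D) : Prop where
  mul : ∀ s L a s' L' a' v, 0 < s → 0 < s' → IsLor L → IsLor L' →
    Q.U s L a (Q.U s' L' a' v) = Q.U (s * s') (fun m => sim 1 L 0 (L' m)) (sim s L a a') v
  cont : ∀ v, ContinuousOn (fun p : ℝ × (Ix → V) × V => Q.U p.1 p.2.1 p.2.2 v)
    {p | 0 < p.1 ∧ IsLor p.2.1}

variable (D) in
/-- row MF3: multiplets -/
def MF3 : Prop := ∀ (Q : Theory D) K, Cr Q → P.CntF Q → (∀ B, B ∈ K ↔ Q.fld B) → Sp0 Q K → MfAll Q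

variable (D) in
/-- row AP3: scaling laws -/
def AP3 : Prop := ∀ (Q : Theory D) K, Cr Q → P.CntF Q → (∀ B, B ∈ K ↔ Q.fld B) → Sp0 Q K → FSL Q

end Vale.Agent.P352R.Cf
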