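import Vale.Agent.P352R.Cf.Fd2
import Vale.Agent.P352R.Cf.Fo
import Vale.Agent.P352R.Cf.Rp
import Vale.Agent.P352R.Cf.St2

/-!
# P352R, block Cf, row LD: a continuous action of the Lorentz group on a space of countable
dimension is weakly differentiable
-/

set_option autoImplicit false
set_option linter.all false

namespace Vale.Agent.P352R.Cf

open Vale.Agent.P352 Vale.Agent.P352.GF Vale.Agent.P352H Set
open Vale.Agent.P352X.CA (mm)

variable {W : Type*} [AddCommGroup W] [Module ℂ W]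

theorem ld_dual {Λ : Set (W →ₗ[ℂ] ℂ)} (sep : ∀ y, (∀ l ∈ Λ, l y = 0) → y = 0)
    (U : Submodule ℂ W) [FiniteDimensional ℂ U] (c : ℝ → U)
    (hc : ∀ l ∈ Λ, ContinuousAt (fun t => l (c t : W)) 0) (l : Module.Dual ℂ U) :
    ContinuousAt (fun t => l (c t)) 0 := by
  have ht : Submodule.span ℂ ((fun l : W →ₗ[ℂ] ℂ => (l ∘ₗ U.subtype :
      Module.Dual ℂ U)) '' Λ) = ⊤ := by
    rw [← Subspace.dualCoannihilator_dualAnnihilator_eq (W := Submodule.span ℂ _)]
    have e : (Submodule.span ℂ ((fun l : W →ₗ[ℂ] ℂ => (l ∘ₗ U.subtype :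
        Module.Dual ℂ U)) '' Λ)).dualCoannihilator = ⊥ := by
      rw [eq_bot_iff]
      intro z hz
      rw [Submodule.mem_dualCoannihilator] at hz
      have : (z : W) = 0 := sep z fun l hl => hz _ (Submodule.subset_span ⟨l, hl, rfl⟩)
      exact Subtype.ext this
    rw [e, Submodule.dualAnnihilator_bot]
  have hl : l ∈ Submodule.span ℂ ((fun l : W →ₗ[ℂ] ℂ => (l ∘ₗ U.subtype :
      Module.Dual ℂ U)) '' Λ) := ht ▸ Submodule.mem_top
  induction hl using Submodule.span_induction with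
  | mem l hl =>
    obtain ⟨l, hl, rfl⟩ := hl
    exact hc l hl
  | zero => exact continuousAt_const
  | add l l' _ _ h1 h2 => exact h1.add h2
  | smul a l _ h1 => exact h1.const_smul a

theorem ld_core (p : POL) {ρ : (Ix → V) → W →ₗ[ℂ] W} {Λ : Set (W →ₗ[ℂ] ℂ)} (h1 : ρ one = 1)
    (mul : ∀ L L', IsLor L → IsLor L' → ρ (cp L L') = ρ L * ρ L')
    (sep : ∀ y, (∀ l ∈ Λ, l y = 0) → y = 0)
    (cont : ∀ y, ∀ l ∈ Λ, ContinuousAt (fun t => l (ρ (Np t 0) y)) 0)
    (hr : Module.rank ℂ W ≤ Cardinal.aleph0) : Lact ρ Λ := by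
  refine ⟨h1, fun L L' a b => .inl (mul L L' a b), sep, fun x l hl => ?_⟩
  have o : Orb2 (fun t => ρ (Np t 0)) Λ := by
    refine ⟨by simp only [np_zero, h1], fun s t => .inl ?_, sep, cont⟩
    have := mul (Np s 0) (Np t 0) (np_lor _ _) (np_lor _ _)
    rwa [fo_cp, np_add, add_zero, add_comm t s] at this
  have k := fin_orbit ρ (-1) ⊤ (fun _ _ _ _ => Submodule.mem_top) (fun L L' a b y _ => by
    have e := mul L' L b a
    rw [fo_cp] at e
    exact .inr (.inl (by rw [e]; rfl))) (fun y _ => fd2 W _ Λ o hr y) x Submodule.mem_top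
  haveI : FiniteDimensional ℂ (lo ρ x) := by
    refine Submodule.finiteDimensional_of_le (S₂ := Submodule.span ℂ
      ((fun L => ρ L x) '' {L | IsLor L})) (Submodule.span_mono ?_)
    rintro _ ⟨L, rfl⟩
    exact ⟨L.1, L.2, rfl⟩
  have inv : ∀ L, IsLor L → ∀ y ∈ lo ρ x, ρ L y ∈ lo ρ x := by
    intro L hL y hy
    have hle : (lo ρ x).map (ρ L) ≤ lo ρ x := by
      rw [lo, Submodule.map_span]
      refine Submodule.span_mono ?_
      rintro _ ⟨_, ⟨L', rfl⟩, rfl⟩
      refine ⟨⟨_, Rpp.lor_cp hL L'.2⟩, ?_⟩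
      show ρ (cp L L') x = _
      rw [mul L L' hL L'.2]
      rfl
    exact hle (Submodule.mem_map_of_mem hy)
  classical
  let r : (Ix → V) → lo ρ x →ₗ[ℂ] lo ρ x := fun L =>
    if hL : IsLor L then (ρ L).restrict (inv L hL) else 1
  have rc : ∀ L, IsLor L → ∀ y, (r L y : W) = ρ L y := fun L hL y => by
    simp only [r, dif_pos hL]
    rfl
  have r1 : r one = 1 := by
    ext y
    rw [rc _ H496.isLor_one, h1]
    rfl
  have rm : ∀ L L', IsLor L → IsLor L' → r (cp L L') = r L * r L' := fun L L' a b => by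
    ext y
    rw [rc _ (Rpp.lor_cp a b), mul L L' a b, Module.End.mul_apply, Module.End.mul_apply, rc _ a,
      rc _ b]
  let b := Module.finBasis ℂ (lo ρ x)
  let M : (Ix → V) → Matrix _ _ ℂ := fun L => LinearMap.toMatrix b b (r L)
  have hp := p _ M (by
      show LinearMap.toMatrix b b (r one) = 1
      rw [r1, LinearMap.toMatrix_one])
    (fun L L' a c => by
      show LinearMap.toMatrix b b (r (cp L L')) = _
      rw [rm L L' a c, LinearMap.toMatrix_mul])
    (fun c a => by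
      have := ld_dual sep (lo ρ x) (fun t => r (Np t 0) (b a)) (fun l hl => by
        simp only [rc _ (np_lor _ _)]
        exact cont _ l hl) (b.coord c)
      simp only [M, LinearMap.toMatrix_apply]
      exact this)
  have hx : x ∈ lo ρ x := by
    have h2 : ρ one x ∈ lo ρ x := Submodule.subset_span ⟨⟨_, H496.isLor_one⟩, rfl⟩
    rw [h1] at h2
    exact h2
  choose S hS using hp
  have e : ∀ L, IsLor L → l (ρ L x) = ∑ a, ∑ c, (b.repr ⟨x, hx⟩ a * l (b c : W)) * M L c a := by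
    intro L hL
    have e1 : ρ L x = (r L ⟨x, hx⟩ : W) := (rc _ hL ⟨x, hx⟩).symm
    have e2 : r L ⟨x, hx⟩ = ∑ a, ∑ c, (b.repr ⟨x, hx⟩ a * M L c a) • b c := by
      conv_lhs => rw [← b.sum_repr ⟨x, hx⟩]
      rw [map_sum]
      refine Finset.sum_congr rfl fun a _ => ?_
      rw [map_smul]
      conv_lhs => rw [← b.sum_repr (r L (b a))]
      rw [Finset.smul_sum]
      refine Finset.sum_congr rfl fun c _ => ?_
      simp only [M, LinearMap.toMatrix_apply, smul_smul]
    rw [e1, e2]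
    simp only [Submodule.coe_sum, Submodule.coe_smul, map_sum, map_smul, smul_eq_mul]
    exact Finset.sum_congr rfl fun a _ => Finset.sum_congr rfl fun c _ => by ring
  refine ⟨fun m n => ∑ a, ∑ c, (b.repr ⟨x, hx⟩ a * l (b c : W)) * S c a m n,
    fun L w h0 hL hw => ?_⟩
  have h3 := HasDerivAt.fun_sum (u := Finset.univ) fun a _ =>
    HasDerivAt.fun_sum (u := Finset.univ) fun c _ =>
      (hS c a L w h0 hL hw).const_mul (b.repr ⟨x, hx⟩ a * l (b c : W))
  have e3 : ∑ m, ∑ n, (w m n : ℂ) * ∑ a, ∑ c, (b.repr ⟨x, hx⟩ a * l (b c : W)) * S c a m n =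
      ∑ a, ∑ c, (b.repr ⟨x, hx⟩ a * l (b c : W)) * ∑ m, ∑ n, (w m n : ℂ) * S c a m n := by
    simp only [Finset.mul_sum]
    calc ∑ m, ∑ n, ∑ a, ∑ c, (w m n : ℂ) * ((b.repr ⟨x, hx⟩ a * l (b c : W)) * S c a m n)
        = ∑ m, ∑ a, ∑ n, ∑ c, (w m n : ℂ) * ((b.repr ⟨x, hx⟩ a * l (b c : W)) * S c a m n) :=
          Finset.sum_congr rfl fun m _ => Finset.sum_comm
      _ = ∑ a, ∑ m, ∑ n, ∑ c, (w m n : ℂ) * ((b.repr ⟨x, hx⟩ a * l (b c : W)) * S c a m n) :=
          Finset.sum_comm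
      _ = ∑ a, ∑ m, ∑ c, ∑ n, (w m n : ℂ) * ((b.repr ⟨x, hx⟩ a * l (b c : W)) * S c a m n) :=
          Finset.sum_congr rfl fun a _ => Finset.sum_congr rfl fun m _ => Finset.sum_comm
      _ = ∑ a, ∑ c, ∑ m, ∑ n, (w m n : ℂ) * ((b.repr ⟨x, hx⟩ a * l (b c : W)) * S c a m n) :=
          Finset.sum_congr rfl fun a _ => Finset.sum_comm
      _ = _ := Finset.sum_congr rfl fun a _ => Finset.sum_congr rfl fun c _ =>
          Finset.sum_congr rfl fun m _ => Finset.sum_congr rfl fun n _ => by ring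
  rw [e3]
  simp only [e _ (hL _)]
  exact h3

theorem ld (p : POL) (W : Type*) [AddCommGroup W] [Module ℂ W] : LD W :=
  fun _ _ h hr => ld_core p h.id h.mul h.sep h.cont hr

end Vale.Agent.P352R.Cf
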