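import Vale.Agent.P352R.Cf.St2
import Vale.Agent.P352R.Cf.Cnt
import Vale.Agent.P352R.Cf.Fo
import Vale.Agent.P352R.Cf.Fd2
import Vale.Agent.P352R.Cf.Rp
import Vale.Agent.P352R.Ct.App0

/-!
# P352R, block Cf, row MF3: multiplets from strong continuity
-/

set_option autoImplicit false
set_option linter.all false

noncomputable section

open Filter Topology

namespace Vale.Agent.P352R.Cf

open Vale.Agent.P352 Vale.Agent.P352.GF Vale.Agent.P352.H746 Vale.Agent.P352.H15
open Vale.Agent.P352.H246 Vale.Agent.P352.H496 Vale.Agent.P352W.Rp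

variable {D : Type*} [NormedAddCommGroup D] [InnerProductSpace ℂ D] {Q : Theory D}

/-- the orbit of a field along a curve of similitudes is continuous at the identity -/
theorem cr_cont {s : ℝ → ℝ} {L : ℝ → Ix → V} {a : ℝ → V} {w : Ix → V} {r : ℝ} {c : V}
    (h : Cr Q) (K : Crv s L a w r c) {B : Fld D} (hB : Q.fld B) {f : Fn} (hf : GF.IsTest f)
    (v : D) : ContinuousAt
      (fun e => Q.U (s e) (L e) (a e) (B (fun x => f (sim (s e) (L e) (a e) x)) v)) 0 := by
  obtain ⟨F, rfl⟩ := exists_fl hf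
  have h1 := (K.der ((fcl hB v).restrictScalars ℝ) F).continuousAt.tendsto
  simp only [ContinuousLinearMap.coe_restrictScalars', fcl_apply, K.cs_zero] at h1
  have h2 := h1.sub_const (B (fl F) v)
  rw [sub_self, tendsto_zero_iff_norm_tendsto_zero] at h2
  have h4 : Tendsto (fun e => Q.U (s e) (L e) (a e) (B (fl (K.cs F e)) v - B (fl F) v))
      (𝓝 0) (𝓝 0) := tendsto_zero_iff_norm_tendsto_zero.2
    (h2.congr fun e => (U_nrm0 (K.sp e) (K.lor e) _ _).symm)
  have h0 : ContinuousAt (fun e => (s e, L e, a e)) 0 :=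
    K.ds.continuousAt.prodMk ((continuousAt_pi.2 fun m => continuousAt_pi.2 fun n =>
      (K.dL m n).continuousAt).prodMk (continuousAt_pi.2 fun n => (K.da n).continuousAt))
  have h3 : Tendsto (fun e => Q.U (s e) (L e) (a e) (B (fl F) v)) (𝓝 0)
      (𝓝 (Q.U (s 0) (L 0) (a 0) (B (fl F) v))) :=
    (h.cont (B (fl F) v) (s 0, L 0, a 0) ⟨K.sp 0, K.lor 0⟩).tendsto.comp
      (tendsto_nhdsWithin_of_tendsto_nhds_of_eventually_within _ h0
        (Eventually.of_forall fun e => ⟨K.sp e, K.lor e⟩))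
  have h5 := h4.add h3
  rw [zero_add] at h5
  have e : ∀ e, Q.U (s e) (L e) (a e) (B (fun x => fl F (sim (s e) (L e) (a e) x)) v) =
      Q.U (s e) (L e) (a e) (B (fl (K.cs F e)) v) := fun e => by
    simp only [fl_sim (s e) (K.sp e) (K.lor e)]
    rfl
  rw [ContinuousAt]
  simp only [e, K.cs_zero]
  refine h5.congr fun e => ?_
  rw [H746.U_sub' (K.sp e) (K.lor e), sub_add_cancel]

namespace M3

open Ct (Wv rs ac ac_rs sim_sim)
open Vale.Agent.P352X

/-- the Lorentz transformations map the fields of `K` to fields of `K` -/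
def Cv (Q : Theory D) (K : Submodule ℂ (Fld D)) : Prop :=
  ∀ L B, IsLor L → B ∈ K → ∃ C ∈ K, ∀ f v, GF.IsTest f →
    Q.U 1 L 0 (B (fun x => f (sim 1 L 0 x)) v) = C f (Q.U 1 L 0 v)

variable {K : Submodule ℂ (Fld D)}

theorem stab (c : Cv Q K) {L : Ix → V} (hL : IsLor L) :
    ∀ y ∈ K.map (rs Q), ac Q one_pos hL y ∈ K.map (rs Q) := by
  rintro _ ⟨B, hB, rfl⟩
  obtain ⟨C, a, b⟩ := c L B hL hB
  exact ⟨C, a, (ac_rs one_pos hL b).symm⟩

open Classical in
/-- the action on the vectors made from the vacuum -/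
def sg (c : Cv Q K) (L : Ix → V) : K.map (rs Q) →ₗ[ℂ] K.map (rs Q) :=
  if hL : IsLor L then (ac Q one_pos hL).restrict (stab c hL) else 1

theorem sg_val (c : Cv Q K) {L : Ix → V} (hL : IsLor L) (y : K.map (rs Q)) :
    (sg c L y : Wv D) = ac Q one_pos hL y := by
  rw [sg, dif_pos hL]
  rfl

/-- the matrix elements -/
def Lm (Q : Theory D) (K : Submodule ℂ (Fld D)) : Set (K.map (rs Q) →ₗ[ℂ] ℂ) :=
  {l | ∃ w f, ∀ ψ, l ψ = inner ℂ w (ψ.1 f)}

theorem lc (h : Cr Q) (c : Cv Q K) (fl : ∀ B ∈ K, Q.fld B) : Lc (sg c) (Lm Q K) := by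
  refine ⟨LinearMap.ext fun y => Subtype.ext ?_, fun L L' a b => LinearMap.ext fun y =>
    Subtype.ext ?_, fun y k => Subtype.ext (funext fun f => ext_inner_left ℂ fun v => ?_), ?_⟩
  · rw [sg_val c H496.isLor_one]
    funext f
    refine (U1_zero_all (Q := Q) _).trans (congrArg y.1 (Subtype.ext (funext fun x => ?_)))
    refine congrArg f.1 (funext fun n => ?_)
    simp [sim, GF.one, bas]
  · rw [Module.End.mul_apply, sg_val c (Rpp.lor_cp a b), sg_val c a, sg_val c b]
    funext f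
    refine Eq.trans ?_ (h.mul 1 L 0 1 L' 0 _ one_pos one_pos a b).symm
    simp only [Co.sim_zero, sim_sim, mul_one]
    rfl
  · exact (k ((innerₛₗ ℂ v).comp ((LinearMap.proj f).comp (Submodule.subtype _)))
      ⟨v, f, fun _ => rfl⟩).trans (inner_zero_right _).symm
  · rintro ⟨_, B, hB, rfl⟩ l ⟨v, f, e⟩
    simp only [e, sg_val c (P352H.np_lor _ _)]
    exact continuousAt_const.inner (cr_cont h (Co.crv_lor (L := fun e => P352H.Np e 0) P352H.np_zero
      (fun e => P352H.np_lor e 0) P352H.np_der) (fl B hB) f.2 Q.vac)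

theorem rk {S : Set (Fld D)} (hS : S.Countable) (le : K ≤ Submodule.span ℂ S) :
    Module.rank ℂ (K.map (rs Q)) ≤ Cardinal.aleph0 := by
  have : K.map (rs Q) ≤ Submodule.span ℂ (rs Q '' S) :=
    (Submodule.map_mono le).trans (Submodule.map_span _ _).le
  exact (Submodule.rank_mono this).trans ((rank_span_le _).trans (hS.image _).le_aleph0)

theorem mf_of (c : Cv Q K) (fl : ∀ B ∈ K, Q.fld B) (sep : Sp0 Q K) {S : Set (Fld D)}
    (hS : S.Countable) (le : K ≤ Submodule.span ℂ S) (hl : Lact (sg c) (Lm Q K)) {B : Fld D}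
    (hB : B ∈ K) : ∃ (n : ℕ) (C : Fin n → Fld D),
      (∀ i, ∃ k Φ a, IsMf Q k Φ ∧ C i = Φ a) ∧ ∀ f v, GF.IsTest f → B f v = ∑ i, C i f v := by
  have eq : ∀ B ∈ K, ∀ C ∈ K, rs Q B = rs Q C → ∀ f v, GF.IsTest f → B f v = C f v :=
    fun B b C c e f v hf => sub_eq_zero.1 (sep (B - C) (sub_mem b c)
      (fun f hf => sub_eq_zero.2 (congrFun e ⟨f, hf⟩)) f v hf)
  obtain ⟨k, y, d, e, t⟩ := rp _ (sg c) _ ⟨rs Q B, B, hB, rfl⟩ hl
    (fo (fd2 _) _ _ hl (rk hS le) _)
  choose Φ p q using fun a => (y a).2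
  refine ⟨k.n, fun i => d i • Φ i, fun i => ⟨k, fun a => d i • Φ a, i,
    ⟨fun a => fl _ (K.smul_mem _ (p a)), fun a L f v hL hf => ?_⟩, rfl⟩, fun f v hf => ?_⟩
  · choose C u w using fun b => c L (Φ b) hL (p b)
    have := eq (Φ a) (p a) (∑ b, k.ρ L b a • C b)
      (sum_mem fun b _ => K.smul_mem _ (u b)) (by
        have := congrArg Subtype.val (t L a hL)
        rw [q, this, map_sum, Submodule.coe_sum]
        refine Finset.sum_congr rfl fun b _ => ?_
        rw [Submodule.coe_smul, map_smul, sg_val c hL, ← q, ac_rs one_pos hL (w b)])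
      f (Q.U 1 L 0 v) hf
    simp only [Pi.smul_apply, this, Finset.sum_apply, Finset.smul_sum, U_smul one_pos hL,
      w _ f v hf]
    exact Finset.sum_congr rfl fun b _ => smul_comm _ _ _
  · have := eq B hB (∑ i, d i • Φ i) (sum_mem fun i _ => K.smul_mem _ (p i)) (by
      have := congrArg Subtype.val e
      rw [Submodule.coe_sum] at this
      rw [map_sum]
      refine this.trans (Finset.sum_congr rfl fun i _ => ?_)
      rw [Submodule.coe_smul, map_smul, q]) f v hf
    simp only [this, Finset.sum_apply]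

end M3

theorem mf3 (D : Type*) [NormedAddCommGroup D] [InnerProductSpace ℂ D]
    (ld : ∀ W : Submodule ℂ (Ct.Wv D), LD W) : MF3 D := by
  intro Q K h n e sep B hB
  obtain ⟨S, hS, k⟩ := n.cnt
  have c : M3.Cv Q K := fun L B hL a => (n.cov 1 L B one_pos hL ((e B).1 a)).imp
    fun C c => ⟨(e C).2 c.1, c.2.2⟩
  have fl := fun B a => (e B).1 a
  have le : K ≤ Submodule.span ℂ S := fun B a => (k B).1 (fl B a)
  exact M3.mf_of c fl sep hS le (ld _ _ _ (M3.lc h c fl) (M3.rk hS le)) ((e B).2 hB)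

end Vale.Agent.P352R.Cf
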