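import Vale.Agent.P352R.Cf.St2
import Vale.Agent.P352R.Ct.Gen
import Vale.Agent.P352H.Pol

/-!
# P352R, block Cf, row POL: continuous representations of the Lorentz group are polynomial
(helper72)
-/

set_option autoImplicit false
set_option linter.all false

namespace Vale.Agent.P352R.Cf

open Vale.Agent.P352 Vale.Agent.P352.GF Vale.Agent.P352X Vale.Agent.P352H
open Vale.Agent.P352X.CA (As mm)
open Vale.Agent.P352X.CA.G.Rp0 (lor_mm mm_assoc mm_one one_mm)
open Vale.Agent.P352X.EG.Rpx (xp xp_add)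

noncomputable section

namespace Pl

variable {n : ℕ} {ρ : (Ix → V) → Matrix (Fin n) (Fin n) ℂ}

/-- representations that are continuous along the null rotations -/
structure Tc (ρ : (Ix → V) → Matrix (Fin n) (Fin n) ℂ) : Prop where
  id : ρ one = 1
  mul : ∀ L L', IsLor L → IsLor L' → ρ (mm L' L) = ρ L' * ρ L
  cont : ∀ a b, ContinuousAt (fun u : ℝ => ρ (Np u 0) a b) 0

theorem dg_np (u : ℝ) : mm (Dg 2⁻¹ 1 0) (Np u 0) = mm (Np (2 * u) 0) (Dg 2⁻¹ 1 0) := by
  funext m n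
  fin_cases m <;> fin_cases n <;> simp [mm, Dg, Np, Fin.sum_univ_four] <;> ring

section nrm

open scoped Matrix.Norms.Operator

theorem np_xp (t : Tc ρ) : ∃ (G : Matrix (Fin n) (Fin n) ℂ) (N : ℕ), G ^ N = 0 ∧
    ∀ u : ℝ, ρ (Np u 0) = xp G u := by
  obtain ⟨M, hM⟩ : ∃ M : ℝ → Matrix (Fin n) (Fin n) ℂ, M = fun u => ρ (Np u 0) := ⟨_, rfl⟩
  have h0 : M 0 = 1 := by rw [hM]; exact (congrArg ρ np_zero).trans t.id
  have ha : ∀ s u, M (s + u) = M s * M u := fun s u => by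
    simp only [hM]
    rw [← t.mul _ _ (np_lor _ _) (np_lor _ _), np_add, add_zero]
  have c0 : ContinuousAt M 0 :=
    continuousAt_pi.2 fun a => continuousAt_pi.2 fun b => by rw [hM]; exact t.cont a b
  have hc : Continuous M := continuous_iff_continuousAt.2 fun s => by
    have h : ContinuousAt (fun u => M s * M (u - s)) s :=
      continuousAt_const.mul (ContinuousAt.comp (f := fun u => u - s) (by rwa [sub_self])
        (continuousAt_id.sub continuousAt_const))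
    simpa only [← ha, add_sub_cancel] using h
  obtain ⟨G, hG⟩ := Ct.gen_aux M h0 ha hc
  have e : ∀ u, ρ (Dg 2⁻¹ 1 0) * M u = M (2 * u) * ρ (Dg 2⁻¹ 1 0) := fun u => by
    simp only [hM]
    rw [← t.mul _ _ (np_lor _ _) dg_lor, ← t.mul _ _ dg_lor (np_lor _ _), dg_np]
  have d1 := (hG 0).const_mul (ρ (Dg 2⁻¹ 1 0))
  have d2 := ((hG (2 * 0)).scomp (0 : ℝ) ((hasDerivAt_id' (0 : ℝ)).const_mul 2)).mul_const
    (ρ (Dg 2⁻¹ 1 0))
  simp only [e] at d1
  have d := d1.unique d2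
  rw [mul_zero, h0, one_mul, mul_one, ← Complex.coe_smul, Complex.ofReal_ofNat] at d
  obtain ⟨N, hN⟩ := nil (C := ρ (H246.linv (Dg 2⁻¹ 1 0))) d (by
    rw [← t.mul _ _ (H246.isLor_linv dg_lor) dg_lor, (CA.mat_row.inv _ dg_lor).1, t.id])
  refine ⟨G, N, hN, fun u => ?_⟩
  have k : ∀ u : ℝ, HasDerivAt (fun u : ℝ => M u * NormedSpace.exp (u • -G)) 0 u := fun u =>
    ((hG u).mul (hasDerivAt_exp_smul_const' (-G) u)).congr_deriv (by
      rw [neg_mul, mul_neg, mul_assoc, add_neg_cancel])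
  have k1 := is_const_of_deriv_eq_zero (fun u => (k u).differentiableAt) (fun u => (k u).deriv) u 0
  rw [h0, zero_smul, NormedSpace.exp_zero, mul_one] at k1
  have k2 : NormedSpace.exp (u • -G) * xp G u = 1 := by
    rw [← Complex.coe_smul, smul_neg, ← neg_smul]
    exact (xp_add G _ _).symm.trans (by rw [neg_add_cancel, EG.Rpx.xp_zero])
  have : M u = xp G u := by rw [← mul_one (M u), ← k2, ← mul_assoc, k1, one_mul]
  rw [← this, hM]

end nrm

variable {X : Type*} {A : Subalgebra ℂ (X → ℂ)}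

/-- families of Lorentz transformations with matrix elements in the algebra -/
structure Gd (ρ : (Ix → V) → Matrix (Fin n) (Fin n) ℂ) (A : Subalgebra ℂ (X → ℂ))
    (c : X → Ix → V) : Prop where
  lor : ∀ x, IsLor (c x)
  mem : ∀ a b, (fun x => ρ (c x) a b) ∈ A

theorem gd_c {L : Ix → V} (h : IsLor L) : Gd ρ A fun _ => L :=
  ⟨fun _ => h, fun a b => A.algebraMap_mem _⟩

variable (t : Tc ρ)
include t

theorem Gd.mm {c c' : X → Ix → V} (h : Gd ρ A c) (h' : Gd ρ A c') :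
    Gd ρ A fun x => mm (c x) (c' x) := by
  refine ⟨fun x => lor_mm (h'.lor x) (h.lor x), fun a b => ?_⟩
  have := sum_mem fun j (_ : j ∈ Finset.univ) => mul_mem (h.mem a j) (h'.mem j b)
  convert this using 1
  funext x
  simp only [t.mul _ _ (h'.lor x) (h.lor x), Matrix.mul_apply, Finset.sum_apply, Pi.mul_apply]

theorem gd_np0 {u : X → ℝ} (h : Rl A u) : Gd ρ A fun x => Np (u x) 0 := by
  refine ⟨fun x => np_lor _ _, fun a b => ?_⟩
  obtain ⟨G, N, hN, hx⟩ := np_xp t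
  have := sum_mem fun j (_ : j ∈ Finset.range N) =>
    A.smul_mem (pow_mem h j) (((j.factorial : ℂ))⁻¹ * (G ^ j) a b)
  convert this using 1
  funext x
  rw [hx, xp, NormedSpace.exp_eq_tsum (𝕂 := ℂ)]
  beta_reduce
  rw [tsum_eq_sum (s := Finset.range N) fun j hj => by
    rw [smul_pow, pow_eq_zero_of_le (by simpa using hj) hN, smul_zero, smul_zero]]
  simp only [Matrix.sum_apply, Finset.sum_apply, smul_pow, Matrix.smul_apply, smul_eq_mul,
    Pi.smul_apply, Pi.pow_apply]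
  exact Finset.sum_congr rfl fun j _ => by ring

theorem gd_np {u v : X → ℝ} (h : Rl A u) (h' : Rl A v) : Gd ρ A fun x => Np (u x) (v x) := by
  have := (gd_np0 t h).mm t (((gd_c (rr_lor (σ := -1) (by simp))).mm t (gd_np0 t h')).mm t
    (gd_c (rr_lor (σ := 1) (by simp))))
  simpa only [← np_rot, np_add, add_zero, zero_add] using this

theorem gd_nm {u v : X → ℝ} (h : Rl A u) (h' : Rl A v) : Gd ρ A fun x => Nm (u x) (v x) := by
  simp only [nm_eq]
  exact ((gd_c wr_lor).mm t (gd_np t h.neg h')).mm t (gd_c wr_lor)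

theorem gd_dg {l c s : X → ℝ} (hl : Rl A l) (hi : Rl A fun x => (l x)⁻¹) (hc : Rl A c)
    (hs : Rl A s) (l0 : ∀ x, 0 < l x) (h1 : ∀ x, c x ^ 2 + s x ^ 2 = 1) :
    Gd ρ A fun x => Dg (l x) (c x) (s x) := by
  choose p q hp hq hpq using fun x => ex_pq (l0 x) (h1 x)
  have a1 : Rl A fun x => p x * p x := (hl.mul ((rl_c 1).add hc)).half.cg fun x => by
    rw [← hp, sq]
  have a2 : Rl A fun x => p x * q x := (hl.mul hs).half.cg hpq
  have a3 : Rl A fun x => q x * q x := (hl.mul ((rl_c 1).add hc.neg)).half.cg fun x => by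
    rw [← sub_eq_add_neg, ← hq, sq]
  simp only [Rl, Complex.ofReal_mul] at a1 a2 a3
  let B := dbl A (fun x => p x) (fun x => q x) a1 a2 a3
  have bp : Rl B fun y => sn y.1 * p y.2 :=
    ⟨0, zero_mem _, 1, one_mem _, 0, zero_mem _, fun y => by simp⟩
  have bq : Rl B fun y => sn y.1 * q y.2 :=
    ⟨0, zero_mem _, 0, zero_mem _, 1, one_mem _, fun y => by simp⟩
  have bl : Rl B fun y => (l y.2)⁻¹ := ⟨_, hi, 0, zero_mem _, 0, zero_mem _, fun y => by simp⟩
  have g := (gd_c wr_lor).mm t (((gd_np t bp bq).mm t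
    (gd_nm t (bl.mul bp).neg (bl.mul bq).neg)).mm t (gd_np t bp bq))
  have e : ∀ y : Bool × X, Dg (l y.2) (c y.2) (s y.2) = mm Wr (mm (mm
      (Np (sn y.1 * p y.2) (sn y.1 * q y.2))
      (Nm (-((l y.2)⁻¹ * (sn y.1 * p y.2))) (-((l y.2)⁻¹ * (sn y.1 * q y.2)))))
      (Np (sn y.1 * p y.2) (sn y.1 * q y.2))) := fun y => by
    have s2 := sn_sq y.1
    have ne := (l0 y.2).ne'
    have e1 : (sn y.1 * p y.2) ^ 2 + (sn y.1 * q y.2) ^ 2 = l y.2 := by
      linear_combination (p y.2 ^ 2 + q y.2 ^ 2) * s2 + hp y.2 + hq y.2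
    have := dg_eq (e1 ▸ ne)
    rw [e1] at this
    rw [← this]
    congr 1
    · rw [eq_div_iff ne]
      linear_combination -(p y.2 ^ 2 - q y.2 ^ 2) * s2 - hp y.2 + hq y.2
    · rw [eq_div_iff ne]
      linear_combination -(2 * p y.2 * q y.2) * s2 - 2 * hpq y.2
  simp only [← e] at g
  exact ⟨fun x => g.lor (true, x), fun a b => dbl_out (g.mem a b)⟩

theorem cell {w : Ix → V} (hw : IsLor w) (a b : Fin n) :
    Rl Po (fun L => P352H.lam (mm L.1 w)) ∧
      ∃ N : ℕ, (fun L : Lo => (P352H.lam (mm L.1 w) : ℂ)) ^ N * (fun L : Lo => ρ L.1 a b) ∈ Po := by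
  have c0 : ∀ m n, Rl Po fun L => mm L.1 w m n := Rl.mm po_c fun _ _ => rl_c _
  have hp : Rl Po fun L => P352H.lam (mm L.1 w) :=
    (((c0 0 0).add (c0 1 0)).add ((c0 0 1).add (c0 1 1))).half
  refine ⟨hp, loc_out hp ?_⟩
  let B := loc Po _ hp
  have c1 : ∀ m n, Rl B fun x => mm x.1.1 w m n := fun m n => loc_of hp (c0 m n)
  have hl : Rl B fun x => P352H.lam (mm x.1.1 w) := loc_of hp hp
  have hi : Rl B fun x => (P352H.lam (mm x.1.1 w))⁻¹ := by
    simp only [Rl, Complex.ofReal_inv]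
    exact loc_inv hp
  have hu := hi.mul ((c1 0 2).add (c1 1 2)).half
  have hv := hi.mul ((c1 0 3).add (c1 1 3)).half
  have c2 := Rl.mm c1 (hu.neg.nm hv.neg)
  have hx := hi.mul (c2 2 0)
  have hy := hi.mul (c2 3 0)
  have c3 := Rl.mm (hx.neg.np hy.neg) c2
  have G := fun x : {x : Lo // (P352H.lam (mm x.1 w) : ℂ) ≠ 0} =>
    gauss (lor_mm hw x.1.2) (by exact_mod_cast x.2) rfl rfl rfl rfl rfl rfl
  have g := (((gd_np t hx hy).mm t (gd_dg t hl hi (c3 2 2) (c3 2 3) (fun x => (G x).1)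
    fun x => (G x).2.1)).mm t (gd_nm t hu hv)).mm t (gd_c (H246.isLor_linv hw))
  have := g.mem a b
  simp only [← fun x => (G x).2.2] at this
  simpa only [mm_assoc, (CA.mat_row.inv w hw).1, mm_one] using this

/-- **the matrix elements are polynomials** -/
theorem pol (a b : Fin n) : (fun L : Lo => ρ L.1 a b) ∈ Po := by
  let w : Fin 4 → Ix → V := ![CA.Mat.R 1 0, CA.Mat.R (-1) 0, CA.Mat.R 1 2, CA.Mat.R 1 1]
  have hw : ∀ i, IsLor (w i) := fun i => by
    fin_cases i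
    · exact CA.Mat.R_lor (σ := 1) (by simp) 0
    · exact CA.Mat.R_lor (σ := -1) (by simp) 0
    · exact CA.Mat.R_lor (σ := 1) (by simp) 2
    · exact CA.Mat.R_lor (σ := 1) (by simp) 1
  let l : Fin 4 → Lo → ℝ := ![fun L => L.1 0 0 - L.1 0 1 + L.1 0 2 + L.1 0 3,
    fun L => L.1 0 0 + L.1 0 1 + L.1 0 2 + L.1 0 3, fun L => -2 * L.1 0 2, fun L => -2 * L.1 0 3]
  have hl : ∀ i, Rl Po (l i) := fun i => by
    fin_cases i
    · exact ((((po_c 0 0).add (po_c 0 1).neg).add (po_c 0 2)).add (po_c 0 3)).cg fun _ => by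
        simp [l, sub_eq_add_neg]
    · exact (((po_c 0 0).add (po_c 0 1)).add (po_c 0 2)).add (po_c 0 3)
    · exact (rl_c _).mul (po_c 0 2)
    · exact (rl_c _).mul (po_c 0 3)
  refine Po.mem_of_finsetSum_eq_one_of_pow_smul_mem Finset.univ
    (fun i L => (P352H.lam (mm L.1 (w i)) : ℂ)) (fun i L => (l i L : ℂ)) ?_
    (fun i => (cell t (hw i) a b).1) hl _ fun i => (cell t (hw i) a b).2
  funext L
  have h00 := L.2.1 0 0
  have h01 := L.2.1 0 1
  simp [md, bas, CA.Mat.e0'] at h00 h01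
  have : ∑ i, l i L * P352H.lam (mm L.1 (w i)) = 1 := by
    simp [l, w, P352H.lam, mm, CA.Mat.R, Fin.sum_univ_four]
    linear_combination h00 + h01
  simp only [Finset.sum_apply, Pi.mul_apply, Pi.one_apply]
  exact_mod_cast this

end Pl

/-- **the matrix elements are polynomials** -/
theorem pol2 {n : ℕ} (M : (Ix → V) → Matrix (Fin n) (Fin n) ℂ) (h1 : M one = 1)
    (t : ∀ L L', IsLor L → IsLor L' → M (mm L' L) = M L' * M L)
    (hc : ∀ a b, ContinuousAt (fun u : ℝ => M (Np u 0) a b) 0) (a b : Fin n) :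
    (fun L : Lo => M L.1 a b) ∈ Po := Pl.pol ⟨h1, t, hc⟩ a b

theorem Pl.der {F : Lo → ℂ} (hF : F ∈ Po) : ∃ S : Ix → Ix → ℂ, ∀ (L : ℝ → Ix → V) (w : Ix → V)
    (h : ∀ e, IsLor (L e)), L 0 = one → (∀ m n, HasDerivAt (fun e => L e m n) (w m n) 0) →
    HasDerivAt (fun e => F ⟨L e, h e⟩) (∑ m, ∑ n, w m n * S m n) 0 := by
  induction hF using Algebra.adjoin_induction with
  | mem f hf =>
    obtain ⟨p, rfl⟩ := hf
    refine ⟨fun m n => if m = p.1 then if n = p.2 then 1 else 0 else 0, fun L w h _ d => ?_⟩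
    exact (d p.1 p.2).ofReal_comp.congr_deriv (by simp)
  | algebraMap c =>
    exact ⟨0, fun L w h _ d => (hasDerivAt_const _ _).congr_deriv (by simp)⟩
  | add f g _ _ hf hg =>
    obtain ⟨S, hf⟩ := hf
    obtain ⟨S', hg⟩ := hg
    refine ⟨S + S', fun L w h e d => ((hf L w h e d).add (hg L w h e d)).congr_deriv ?_⟩
    simp only [Pi.add_apply, mul_add, Finset.sum_add_distrib]
  | mul f g _ _ hf hg =>
    obtain ⟨S, hf⟩ := hf
    obtain ⟨S', hg⟩ := hg
    by_cases o : IsLor one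
    · refine ⟨fun m n => S m n * g ⟨one, o⟩ + f ⟨one, o⟩ * S' m n, fun L w h e d =>
        ((hf L w h e d).mul (hg L w h e d)).congr_deriv ?_⟩
      have : (⟨L 0, h 0⟩ : Lo) = ⟨one, o⟩ := Subtype.ext e
      simp only [this, mul_add, Finset.sum_add_distrib, Finset.sum_mul, Finset.mul_sum, mul_assoc,
        mul_left_comm (f _)]
    · exact ⟨0, fun L w h e _ => (o (e ▸ h 0)).elim⟩

/-- row POL -/
theorem pol : POL := fun n M h1 hm hc a b => by
  have e : ∀ L L' : Ix → V, mm L' L = cp L L' := fun L L' => by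
    funext m k
    simp [mm, sim]
  obtain ⟨S, hS⟩ := Pl.der (pol2 (fun L => (M L).transpose) (by rw [h1, Matrix.transpose_one])
    (fun L L' h h' => by rw [e, hm L L' h h', Matrix.transpose_mul]) (fun a b => hc b a) b a)
  exact ⟨S, fun L w e h d => hS L w h e d⟩

end

end Vale.Agent.P352R.Cf
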