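import Vale.Agent.P352R.Cf.Top3
import Vale.Agent.P352R.Cf.Ap3
import Vale.Agent.P352R.Cf.Mf3
import Vale.Agent.P352R.Cf.Pol2
import Vale.Agent.P352R.Cf.Ld

/-!
# P352R, block Cf: continuous representations, no row hypothesis (helper14)
-/

set_option autoImplicit false
set_option linter.all false

namespace Vale.Agent.P352R.Cf

open Vale.Agent.P352 Vale.Agent.P352.GF Vale.Agent.P352X

variable {D : Type*} [NormedAddCommGroup D] [InnerProductSpace ℂ D] {Q : Theory D}

theorem mf3_all : MF3 D := mf3 D fun W => ld pol W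

theorem top_all (c : Cr Q) (h : P.CntF Q) (b : ∀ B, Q.fld B → Q.bose B) : MfAll Q ∧ FSL Q :=
  top3 mf3_all (ap3 D) c h b

theorem rep_all (c : Cr Q) (h : P.CntF Q) (b : ∀ B, Q.fld B → Q.bose B)
    (gen : ∀ w, P352NA.Cyc Q w) : ∃ A, H15.Rep Q A :=
  rep3 mf3_all (ap3 D) c h b gen

end Vale.Agent.P352R.Cf
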