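import Vale.Agent.P352X.EG.SG
import Vale.Agent.P352L.R.WX
import Vale.Agent.P352.ND.L0a
import Vale.Agent.P352W.Cn.Ft

/-!
# P352R, block Cf: fields that annihilate the vacuum vanish (helper85)
-/

set_option autoImplicit false
set_option linter.all false

open Filter Topology
open scoped SchwartzMap

namespace Vale.Agent.P352R.Cf

open Vale.Agent.P352 Vale.Agent.P352.GF Vale.Agent.P352.BW Vale.Agent.P352.H246
open Vale.Agent.P352.H496 Vale.Agent.P352.H755 Vale.Agent.P352X
open UniformSpace (Completion)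

variable {D : Type*} [NormedAddCommGroup D] [InnerProductSpace ℂ D] {Q : Theory D}
  {A : (V → V) → D → D} {N : Set V → VonNeumannAlgebra (Completion D)} {B : Fld D} {f : Fn}

theorem sep0 {M : VonNeumannAlgebra (Completion D)}
    (hd : Dense {z | ∃ Y ∈ M.commutant, Y (om Q) = z})
    (hM : ∀ f, In (Wdg va vb 0) f → Aff M (B f)) (hB : Q.fld B)
    (hv : ∀ f, GF.IsTest f → B f Q.vac = 0) (hf : GF.IsTest f) (v : D) : B f v = 0 := by
  have h1 : ∀ g, In (Wdg va vb 0) g → ∀ v, B g v = 0 := fun g hg v => by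
    obtain ⟨X, a, b⟩ := hM g hg
    refine ext_inner_right ℂ fun w => ?_
    have : ((X w : D) : Completion D) = 0 := hd.eq_zero_of_inner_right ℂ <| by
      rintro _ ⟨Y, hY, rfl⟩
      rw [← inner_conj_symm, om, b Y hY, hv g hg.1, Completion.coe_zero, map_zero,
        inner_zero_right, map_zero]
    rw [a, Completion.coe_injective D (this.trans Completion.coe_zero.symm), inner_zero_right,
      inner_zero_left]
  have h2 : ∀ g, In Set.univ g → B g v = 0 := fun g hg => by
    obtain ⟨R, hR⟩ := hg.2.1.isCompact.isBounded.subset_closedBall 0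
    let a : V := (2 * R + 1) • bas 1 1
    have k : In (Wdg va vb 0) fun z => g (sim 1 GF.one (-a) z) :=
      ND.in_tr (W := Metric.closedBall 0 R) (-a) ⟨hg.1, hg.2.1, hR⟩ fun z hz =>
        P352L.Wx.ball_wdg 0 (lt_add_one (2 * R)) (by
          rwa [Metric.mem_closedBall, dist_eq_norm, zero_add, sub_eq_add_neg, ← mem_closedBall_zero_iff])
    have t := Q.transl B a _ v hB k.1
    rw [h1 _ k] at t
    simp only [P352W.Ft.sim_one, add_neg_cancel_right] at t
    rw [← inner_self_eq_zero (𝕜 := ℂ), ← Q.U_inner 1 GF.one a _ _ one_pos H496.isLor_one, ← t,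
      inner_zero_left]
  obtain ⟨F, rfl⟩ := exists_fl hf
  obtain ⟨g, hg, l⟩ := exists_compact_seq F
  exact tendsto_nhds_unique (((fld_cont hB v).tendsto F).comp l)
    (tendsto_const_nhds.congr fun n => (h2 _ (In_fl.2 ⟨hg n, Set.subset_univ _⟩)).symm)

/-- **SEP** for local nets -/
theorem sep_m (hN : LNm Q A N) (hB : Q.fld B) (hv : ∀ f, GF.IsTest f → B f Q.vac = 0)
    (hf : GF.IsTest f) (v : D) : B f v = 0 :=
  sep0 ((rs_gen (EB.open_Wdg vb va 0) (EG.SGx.wne Grp.na Grp.nb Grp.nab) (hN.fld _)).mono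
    (by rintro _ ⟨X, hX, e⟩; exact ⟨X, hN.loc va vb X Grp.na Grp.nb Grp.nab hX, e⟩))
    (fun f => hN.fld _ B f hB) hB hv hf v

/-- **SEP** for graded nets -/
theorem sep_g {G : D → D} {Γ : Completion D →L[ℂ] Completion D} (hN : LNg Q G A Γ N)
    (hB : Q.fld B) (hv : ∀ f, GF.IsTest f → B f Q.vac = 0) (hf : GF.IsTest f) (v : D) :
    B f v = 0 := by
  refine sep0 (M := N (Wdg va vb 0)) ((rs_gen (EB.open_Wdg vb va 0) (EG.SGx.wne Grp.na Grp.nb Grp.nab) (hN.fld _)).mono
    ?_) (fun f => hN.fld _ B f hB) hB hv hf v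
  rintro _ ⟨X, hX, e⟩
  have h := hN.loc va vb X Grp.na Grp.nb Grp.nab hX
  have g : Γ (om Q) = om Q := by rw [om, hN.ext, hN.vac]
  refine ⟨_, (N (Wdg va vb 0)).commutant.toStarSubalgebra.smul_mem (add_mem h.1 h.2) (1 / 2 : ℂ),
    Eq.trans ?_ e⟩
  simp only [ContinuousLinearMap.smul_apply, ContinuousLinearMap.add_apply,
    ContinuousLinearMap.sub_apply, ContinuousLinearMap.mul_apply, g]
  module

end Vale.Agent.P352R.Cf
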