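import Vale.Agent.P352R.Cf.Apg
import Vale.Agent.P352R.Cf.St
import Vale.Agent.P352R.Cf.Sep

/-!
# P352R, block Cf: the rows `CFB` and `CFG` (helper14)
-/

set_option autoImplicit false
set_option linter.all false

noncomputable section

namespace Vale.Agent.P352R.Cf

open Vale.Agent.P352 Vale.Agent.P352.GF Vale.Agent.P352.H246 Vale.Agent.P352X
open UniformSpace (Completion)

variable {D : Type*} [NormedAddCommGroup D] [InnerProductSpace ℂ D] {Q : Theory D}
  {A : (V → V) → D → D} {G : D → D}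

namespace Cb

theorem sim0 (s : ℝ) (L : Ix → V) : sim s L 0 (0 : V) = 0 := funext fun n => by simp [sim]

theorem fsl (dm : Ag.Dm Q) (R : P352L.Gnr Q A) (h : P.CntF Q)
    (sep : ∀ K : Submodule ℂ (Fld D), (∀ B ∈ K, Q.fld B) → Sp0 Q K) : FSL Q := by
  obtain ⟨S, hS, e⟩ := h.cnt
  intro B hB
  by_cases b : Q.bose B
  · have k := fun C a => Q.bose_fld C (h.sub C a)
    exact Ag.apg dm R (Submodule.span ℂ {B | Q.bose B}) S hS (fun C a => (e C).1 (k C a))
      (fun C a => ⟨k C a, fun _ => h.sub C a⟩) hB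
      (fun s hs => (h.cov s _ B hs H496.isLor_one hB).imp fun C a =>
        ⟨Submodule.subset_span (a.2.1 b), a.2.2⟩) (sep _ k)
  · exact Ag.apg dm R _ S hS le_rfl (fun C a => ⟨(e C).2 a, fun k => (b k).elim⟩) hB
      (fun s hs => (h.cov s _ B hs H496.isLor_one hB).imp fun C a => ⟨(e C).1 a.1, a.2.2⟩)
      (sep _ fun C a => (e C).2 a)

theorem G_add (g : Gr Q G) (v w : D) : G (v + w) = G v + G w :=
  ext_inner_right ℂ fun z => by rw [inner_add_left, g.herm, g.herm, g.herm, inner_add_left]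

theorem G_smul (g : Gr Q G) (c : ℂ) (v : D) : G (c • v) = c • G v :=
  ext_inner_right ℂ fun z => by rw [inner_smul_left, g.herm, g.herm, inner_smul_left]

/-- the fields of parity `e` -/
def par (g : Gr Q G) (S : Set (Fld D)) (e : ℂ) : Submodule ℂ (Fld D) where
  carrier := {B | B ∈ Submodule.span ℂ S ∧ ∀ f v, GF.IsTest f → B f (G v) = e • G (B f v)}
  zero_mem' := ⟨zero_mem _, fun f v _ => by
    have := G_smul g 0 0
    rw [zero_smul, zero_smul] at this
    show 0 = e • G 0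
    rw [this, smul_zero]⟩
  add_mem' := fun {B C} a b => ⟨add_mem a.1 b.1, fun f v hf => by
    show B f (G v) + C f (G v) = e • G (B f v + C f v)
    rw [a.2 f v hf, b.2 f v hf, G_add g, smul_add]⟩
  smul_mem' := fun c B a => ⟨Submodule.smul_mem _ c a.1, fun f v hf => by
    show c • B f (G v) = e • G (c • B f v)
    rw [a.2 f v hf, G_smul g, smul_comm]⟩

theorem onto (g : Gr Q G) {L : Ix → V} (hL : IsLor L) (v : D) : ∃ w, Q.U 1 L 0 w = v := by
  have u : ∀ v, Q.U (1 * 1) (fun m => sim 1 L 0 (linv L m)) (sim 1 L 0 0) v = v := fun v => by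
    rw [H755.linv_id hL, sim0, mul_one]; exact U1_zero_all (Q := Q) v
  rcases g.mul 1 L 0 1 (linv L) 0 one_pos one_pos hL (isLor_linv hL) with k | ⟨-, -, k⟩
  · exact ⟨_, (k v).trans (u v)⟩
  · exact ⟨_, (k (G v)).trans (by rw [u, g.inv])⟩

theorem fw {Γ : Completion D →L[ℂ] Completion D} {N : Set V → VonNeumannAlgebra (Completion D)}
    (seg : SEG D) (hN : LNg Q G A Γ N) (h : P.CntF Q) {S : Set (Fld D)} (hS : S.Countable)
    (k : ∀ B, Q.fld B ↔ B ∈ Submodule.span ℂ S) {e : ℂ} (he : e = 1 ∨ e = -1) :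
    Fw Q A (par hN.toGr S e) := by
  have ee : e * e = 1 := by rcases he with rfl | rfl <;> simp
  have fl : ∀ B ∈ par hN.toGr S e, Q.fld B := fun B a => (k B).2 a.1
  refine ⟨⟨hN.add, hN.der⟩, fl, ⟨S, hS, fun B a => a.1⟩, fun L B hL a => ?_,
    seg Q G A Γ N _ hN fl, fun L L' hL hL' => ?_⟩
  · obtain ⟨C, c1, -, c2⟩ := h.cov 1 L B one_pos hL (fl B a)
    refine ⟨C, ⟨(k C).1 c1, fun f v hf => ?_⟩, c2⟩
    obtain ⟨w, rfl⟩ := onto hN.toGr hL v
    rw [← hN.GU 1 L 0 w one_pos hL, ← c2 f _ hf, ← c2 f _ hf,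
      a.2 _ w (Ap.test_sim one_pos hL 0 hf), U_smul one_pos hL, hN.GU 1 L 0 _ one_pos hL]
  · rcases hN.mul 1 L 0 1 L' 0 one_pos one_pos hL hL' with m | ⟨-, -, m⟩
    · exact ⟨1, .inl rfl, fun B a f hf => by rw [m, sim0, mul_one, one_smul]⟩
    · refine ⟨e, he, fun B a f hf => ?_⟩
      have p := a.2 f Q.vac hf
      rw [hN.vac] at p
      have l : IsLor (cp L L') := by
        have e : cp L L' = lmul L' L := by
          funext m n
          simp [sim, lmul]
        rw [e]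
        exact isLor_lmul hL' hL
      rw [m, sim0, mul_one, ← hN.GU 1 _ 0 _ one_pos l, ← U_smul one_pos l, ← p]

end Cb

open Cb

theorem sep_row : SEP D := fun _ _ _ _ hN k B a z _ v hf => sep_m hN (k B a) z hf v

theorem seg_row : SEG D := fun _ _ _ _ _ _ hN k B a z _ v hf => sep_g hN (k B a) z hf v

theorem cfb (mf : MF D) (sep : SEP D) : CFB D := by
  intro Q A N hN h
  refine ⟨?_, fsl (fun s s' v hs hs' => ?_) hN.der h fun K => sep Q A N K hN⟩
  · obtain ⟨S, hS, e⟩ := h.cnt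
    have fl := fun B a => (e B).2 a
    exact fun B hB => mf Q A _ ⟨⟨hN.add, hN.der⟩, fl, ⟨S, hS, le_rfl⟩,
      fun L B hL a => (h.cov 1 L B one_pos hL (fl B a)).imp fun C c => ⟨(e C).1 c.1, c.2.2⟩,
      sep Q A N _ hN fl, fun L L' hL hL' => ⟨1, .inl rfl, fun B a f hf => by
        rw [hN.mul _ _ _ _ _ _ _ one_pos one_pos hL hL', sim0, mul_one, one_smul]⟩⟩ B ((e B).1 hB)
  · rw [hN.mul _ _ _ _ _ _ _ hs hs' H496.isLor_one H496.isLor_one, ← Ct.one_one, sim0]

theorem cfg (mf : MF D) (seg : SEG D) : CFG D := by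
  intro Q G A Γ N hN h
  refine ⟨fun B hB => ?_, fsl (fun s s' v hs hs' => ?_) hN.der h fun K => seg Q G A Γ N K hN⟩
  · obtain ⟨S, hS, e⟩ := h.cnt
    obtain ⟨C, C', a, b, c⟩ := hN.split B hB
    obtain ⟨n, E, e1, e2⟩ := mf Q A _ (fw seg hN h hS e (.inl rfl)) C
      ⟨(e C).1 (Q.bose_fld C a), fun f v hf => by rw [hN.bose C f v a hf, one_smul]⟩
    obtain ⟨n', E', e1', e2'⟩ := mf Q A _ (fw seg hN h hS e (.inr rfl)) C'
      ⟨(e C').1 b.1, fun f v hf => by rw [b.2 f v hf, neg_one_smul]⟩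
    refine ⟨n + n', Fin.append E E', fun i => ?_, fun f v hf => ?_⟩
    · refine Fin.addCases (fun i => ?_) (fun i => ?_) i
      · rw [Fin.append_left]; exact e1 i
      · rw [Fin.append_right]; exact e1' i
    · simp only [Fin.sum_univ_add, Fin.append_left, Fin.append_right]
      rw [c f v hf, e2 f v hf, e2' f v hf]
  · rcases hN.mul s _ 0 s' _ 0 hs hs' H496.isLor_one H496.isLor_one with m | ⟨m, -⟩
    · rw [m, ← Ct.one_one, sim0]
    · exact (m rfl).elim

end Vale.Agent.P352R.Cf
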