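import Vale.Agent.P352R.Cf.St2
import Vale.Agent.P352.BW.U

/-!
# P352R, block Cf, row CTS: differentiable representations are strongly continuous (helper1)
-/

set_option autoImplicit false
set_option linter.all false

namespace Vale.Agent.P352R.Cf

open Vale.Agent.P352 Vale.Agent.P352.GF
open Filter Topology

namespace Cs

lemma cw {E F : Type*} [NormedAddCommGroup E] [NormedSpace ℝ E] [PseudoMetricSpace F] {G : Set E}
    {p : E} (h0 : p ∈ G) {u : E → F} (h : ∀ γ : ℝ → E, γ 0 = p → (∀ e, γ e ∈ G) →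
      HasDerivAt γ 0 0 → ContinuousAt (fun e => u (γ e)) 0) : ContinuousWithinAt u G p := by
  by_contra hn
  rw [Metric.continuousWithinAt_iff] at hn
  push Not at hn
  obtain ⟨ε, hε, hn⟩ := hn
  have h1 : ∀ e : ℝ, ∃ q, q ∈ G ∧ dist q p ≤ e ^ 2 ∧ (e ≠ 0 → ε ≤ dist (u q) (u p)) := by
    intro e
    by_cases he : e = 0
    · exact ⟨p, h0, by simp [he], fun k => absurd he k⟩
    · obtain ⟨q, a, b, c⟩ := hn (e ^ 2) (by positivity)
      exact ⟨q, a, b.le, fun _ => c⟩
  choose γ hG hd hf using h1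
  have g0 : γ 0 = p := by
    have := hd 0
    rw [zero_pow two_ne_zero] at this
    exact dist_le_zero.1 this
  have hD : HasDerivAt γ 0 0 := by
    rw [hasDerivAt_iff_isLittleO, Asymptotics.isLittleO_iff]
    intro c hc
    filter_upwards [Metric.ball_mem_nhds (0 : ℝ) hc] with e he
    rw [mem_ball_zero_iff] at he
    have h2 := hd e
    rw [dist_eq_norm, ← sq_abs, ← Real.norm_eq_abs] at h2
    rw [g0, smul_zero, sub_zero, sub_zero]
    nlinarith [norm_nonneg e]
  have h3 := Metric.tendsto_nhds.1 (h γ g0 hG hD).tendsto ε hε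
  obtain ⟨e, h4, h5⟩ := ((h3.filter_mono (nhdsWithin_le_nhds (s := {0}ᶜ))).and
    self_mem_nhdsWithin).exists
  rw [g0] at h4
  exact absurd (hf e h5) (not_le.2 h4)

lemma sim_sim (s s' : ℝ) (L L' : Ix → V) (a a' x : V) :
    sim (s * s') (fun m => sim 1 L 0 (L' m)) (sim s L a a') x = sim s L a (sim s' L' a' x) := by
  funext n
  simp only [sim, Pi.zero_apply, zero_add, one_mul, add_mul, Finset.sum_add_distrib, mul_add,
    Finset.mul_sum, Finset.sum_mul, add_assoc]
  rw [Finset.sum_comm]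
  congr 2
  refine Finset.sum_congr rfl fun k _ => Finset.sum_congr rfl fun m _ => ?_
  ring

lemma sim_neg {s : ℝ} (hs : 0 < s) {L : Ix → V} (hL : IsLor L) (y : V) :
    sim s L y (-(sim s⁻¹ (H246.linv L) 0 y)) = 0 := by
  have h := H755.sim_linv hL y
  funext n
  have h1 := congrFun h n
  simp only [sim, Pi.zero_apply, zero_add, one_mul, Pi.neg_apply] at h1 ⊢
  have e : ∀ m, -(s⁻¹ * ∑ k, y k * H246.linv L k m) * L m n =
      -s⁻¹ * ((∑ k, y k * H246.linv L k m) * L m n) := fun m => by ring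
  simp only [e]
  rw [← Finset.mul_sum, h1]
  field_simp
  ring

end Cs

/-- **row CTS** -/
theorem cts {D : Type*} [NormedAddCommGroup D] [InnerProductSpace ℂ D] {Q : Theory D}
    {A : (V → V) → D → D} (h : H15.Rep Q A) : Cr Q := by
  refine ⟨h.mul, fun v p hp => Cs.cw hp fun γ g0 hG hD => ?_⟩
  obtain ⟨s, L, a⟩ := p
  obtain ⟨hs, hL⟩ : 0 < s ∧ IsLor L := hp
  have hs' := inv_pos.2 hs
  have hL' := H246.isLor_linv hL
  obtain ⟨x, rfl⟩ : ∃ x, Q.U s⁻¹ (H246.linv L) (-(sim s⁻¹ (H246.linv L) 0 a)) x = v :=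
    ⟨_, BW.ue_inv h hs' hL' _ v⟩
  have d1 : HasDerivAt (fun e => (γ e).1) 0 0 := hD.fst
  have d2 : ∀ m n, HasDerivAt (fun e => (γ e).2.1 m n) 0 0 := fun m n =>
    hasDerivAt_pi.1 (hasDerivAt_pi.1 hD.snd.fst m) n
  have d3 : ∀ n, HasDerivAt (fun e => (γ e).2.2 n) 0 0 := fun n => hasDerivAt_pi.1 hD.snd.snd n
  have h1 := h.der (fun e => (γ e).1 * s⁻¹) (fun e m => sim 1 (γ e).2.1 0 (H246.linv L m))
    (fun e => sim (γ e).1 (γ e).2.1 (γ e).2.2 (-(sim s⁻¹ (H246.linv L) 0 a))) 0 x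
    (by rw [g0]; exact mul_inv_cancel₀ hs.ne') (by rw [g0]; exact H755.linv_id hL)
    (by rw [g0]; exact Cs.sim_neg hs hL a)
    (fun e => ⟨mul_pos (hG e).1 hs', BW.ue_lor (hG e).2 hL'⟩) fun n z => by
      simp only [Cs.sim_sim]
      generalize sim s⁻¹ (H246.linv L) (-(sim s⁻¹ (H246.linv L) 0 a)) z = y
      have h2 := (d3 n).fun_add (d1.fun_mul (HasDerivAt.fun_sum (u := Finset.univ)
        fun m _ => (d2 m n).const_mul (y m)))
      simp only [mul_zero, zero_mul, add_zero, Finset.sum_const_zero] at h2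
      exact h2
  refine h1.continuousAt.congr (Eventually.of_forall fun e => ?_)
  exact (h.mul _ _ _ _ _ _ x (hG e).1 hs' (hG e).2 hL').symm

end Vale.Agent.P352R.Cf
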