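import Mathlib

/-!
# P352R, block Cf: words of bounded length in locally finite families have finite orbits
-/

set_option autoImplicit false
set_option linter.all false

namespace Vale.Agent.P352R.Cf

variable {K W : Type*} [Field K] [AddCommGroup W] [Module K W]

/-- a family of operators keeps `U` and has finite dimensional orbits on `U` -/
structure LocFin (U : Submodule K W) (F : Set (W →ₗ[K] W)) : Prop where
  stab : ∀ A ∈ F, ∀ y ∈ U, A y ∈ U
  fin : ∀ y ∈ U, FiniteDimensional K (Submodule.span K {z | ∃ A ∈ F, A y = z})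

/-- the words `A₁ ∘ … ∘ Aₙ`, `Aᵢ` in the `i`-th family -/
def wd : List (Set (W →ₗ[K] W)) → Set (W →ₗ[K] W)
  | [] => {LinearMap.id}
  | F :: Fs => {C | ∃ A ∈ F, ∃ B ∈ wd Fs, C = A ∘ₗ B}

theorem LocFin.img {U : Submodule K W} {F : Set (W →ₗ[K] W)} (h : LocFin U F)
    (V : Submodule K W) (hV : V ≤ U) (hf : FiniteDimensional K V) :
    ∃ V' : Submodule K W, V' ≤ U ∧ FiniteDimensional K V' ∧ ∀ A ∈ F, ∀ y ∈ V, A y ∈ V' := by
  obtain ⟨s, hs⟩ := (Submodule.fg_iff_finiteDimensional V).2 hf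
  have hsU : ∀ y ∈ s, y ∈ U := fun y hy => hV (hs ▸ Submodule.subset_span hy)
  refine ⟨⨆ y : s, Submodule.span K {z | ∃ A ∈ F, A (y : W) = z}, ?_, ?_, ?_⟩
  · refine iSup_le fun y => Submodule.span_le.2 ?_
    rintro _ ⟨A, hA, rfl⟩
    exact h.stab A hA _ (hsU _ y.2)
  · haveI := fun y : s => h.fin y (hsU _ y.2)
    infer_instance
  · intro A hA y hy
    rw [← hs] at hy
    induction hy using Submodule.span_induction with
    | mem y hy =>
      exact Submodule.mem_iSup_of_mem (⟨y, hy⟩ : s) (Submodule.subset_span ⟨A, hA, rfl⟩)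
    | zero => rw [map_zero]; exact Submodule.zero_mem _
    | add a b _ _ ha hb => rw [map_add]; exact Submodule.add_mem _ ha hb
    | smul c a _ ha => rw [map_smul]; exact Submodule.smul_mem _ c ha

theorem LocFin.of_sub {U : Submodule K W} {F : Set (W →ₗ[K] W)}
    (hs : ∀ A ∈ F, ∀ y ∈ U, A y ∈ U)
    (hf : ∀ y ∈ U, ∃ V : Submodule K W, FiniteDimensional K V ∧ ∀ A ∈ F, A y ∈ V) :
    LocFin U F := by
  refine ⟨hs, fun y hy => ?_⟩
  obtain ⟨V, hV, h⟩ := hf y hy
  refine Submodule.finiteDimensional_of_le (S₂ := V) (Submodule.span_le.2 ?_)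
  rintro _ ⟨A, hA, rfl⟩
  exact h A hA

/-- a family indexed by any type -/
theorem LocFin.of_range {T : Type*} {U : Submodule K W} {f : T → W →ₗ[K] W}
    (hs : ∀ t, ∀ y ∈ U, f t y ∈ U)
    (hf : ∀ y ∈ U, FiniteDimensional K (Submodule.span K (Set.range fun t => f t y))) :
    LocFin U (Set.range f) :=
  LocFin.of_sub (by rintro _ ⟨t, rfl⟩; exact hs t) fun y hy =>
    ⟨_, hf y hy, by rintro _ ⟨t, rfl⟩; exact Submodule.subset_span ⟨t, rfl⟩⟩

theorem LocFin.single {U : Submodule K W} {A : W →ₗ[K] W} (hs : ∀ y ∈ U, A y ∈ U) :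
    LocFin U {A} :=
  LocFin.of_sub (by rintro _ rfl; exact hs) fun y _ =>
    ⟨Submodule.span K {A y}, inferInstance, by
      rintro _ rfl; exact Submodule.subset_span rfl⟩

theorem LocFin.mono {U : Submodule K W} {F G : Set (W →ₗ[K] W)} (h : LocFin U G) (hF : F ⊆ G) :
    LocFin U F :=
  LocFin.of_sub (fun A hA => h.stab A (hF hA)) fun y hy =>
    ⟨_, h.fin y hy, fun A hA => Submodule.subset_span ⟨A, hF hA, rfl⟩⟩

theorem LocFin.union {U : Submodule K W} {F G : Set (W →ₗ[K] W)} (h : LocFin U F)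
    (h' : LocFin U G) : LocFin U (F ∪ G) :=
  LocFin.of_sub (fun A hA => hA.elim (h.stab A) (h'.stab A)) fun y hy => by
    haveI := h.fin y hy
    haveI := h'.fin y hy
    refine ⟨Submodule.span K {z | ∃ A ∈ F, A y = z} ⊔ Submodule.span K {z | ∃ A ∈ G, A y = z},
      inferInstance, fun A hA => hA.elim (fun hA => ?_) fun hA => ?_⟩
    · exact Submodule.mem_sup_left (Submodule.subset_span ⟨A, hA, rfl⟩)
    · exact Submodule.mem_sup_right (Submodule.subset_span ⟨A, hA, rfl⟩)

/-- products of two locally finite families -/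
theorem LocFin.comp {U : Submodule K W} {F G : Set (W →ₗ[K] W)} (h : LocFin U F)
    (h' : LocFin U G) : LocFin U {C | ∃ A ∈ F, ∃ B ∈ G, C = A ∘ₗ B} := by
  refine LocFin.of_sub ?_ fun y hy => ?_
  · rintro _ ⟨A, hA, B, hB, rfl⟩ y hy
    exact h.stab A hA _ (h'.stab B hB y hy)
  · obtain ⟨V', -, hV', H⟩ := h.img (Submodule.span K {z | ∃ A ∈ G, A y = z})
      (Submodule.span_le.2 (by rintro _ ⟨B, hB, rfl⟩; exact h'.stab B hB y hy)) (h'.fin y hy)
    refine ⟨V', hV', ?_⟩
    rintro _ ⟨A, hA, B, hB, rfl⟩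
    exact H A hA _ (Submodule.subset_span ⟨B, hB, rfl⟩)

/-- words of a fixed shape in locally finite families are a locally finite family -/
theorem fin_word {U : Submodule K W} (Fs : List (Set (W →ₗ[K] W)))
    (h : ∀ F ∈ Fs, LocFin U F) : LocFin U (wd Fs) := by
  induction Fs with
  | nil => exact LocFin.single fun y hy => hy
  | cons F Fs ih =>
    exact (h F List.mem_cons_self).comp (ih fun G hG => h G (List.mem_cons_of_mem _ hG))

/-- words of length `n` in one locally finite family -/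
theorem fin_pow {U : Submodule K W} {F : Set (W →ₗ[K] W)} (h : LocFin U F) (n : ℕ) :
    LocFin U {C | ∃ l : List (W →ₗ[K] W), l.length ≤ n ∧ (∀ A ∈ l, A ∈ F) ∧ C = l.prod} := by
  induction n with
  | zero =>
    refine (LocFin.single (A := LinearMap.id) fun y hy => hy).mono ?_
    rintro _ ⟨l, hl, -, rfl⟩
    rw [Nat.le_zero, List.length_eq_zero_iff] at hl
    subst hl
    rfl
  | succ n ih =>
    refine ((LocFin.single (A := LinearMap.id) fun y hy => hy).union (h.comp ih)).mono ?_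
    rintro _ ⟨l, hl, hF, rfl⟩
    cases l with
    | nil => exact Or.inl rfl
    | cons A l =>
      exact Or.inr ⟨A, hF A List.mem_cons_self, l.prod,
        ⟨l, by simpa using hl, fun B hB => hF B (List.mem_cons_of_mem _ hB), rfl⟩, rfl⟩

end Vale.Agent.P352R.Cf
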