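import Vale.Agent.P352R.Cf.St
import Vale.Agent.P352R.Cf.Sep

/-!
# P352R, block Cf: the rows SEP and SEG (helper85)
-/

set_option autoImplicit false
set_option linter.all false

namespace Vale.Agent.P352R.Cf

variable (D : Type*) [NormedAddCommGroup D] [InnerProductSpace ℂ D]

theorem sep : SEP D := fun _ _ _ _ h k B b z _ v hf => sep_m h (k B b) z hf v

theorem seg : SEG D := fun _ _ _ _ _ _ h k B b z _ v hf => sep_g h (k B b) z hf v

end Vale.Agent.P352R.Cf
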