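import Vale.Agent.P352R.Cf.St2
import Vale.Agent.P352X.CL.BZ
import Vale.Agent.P352H.Rep

/-!
# P352R, block Cf: the top row for strongly continuous representations (helper14)
-/

set_option autoImplicit false
set_option linter.all false

namespace Vale.Agent.P352R.Cf

open Vale.Agent.P352 Vale.Agent.P352.GF Vale.Agent.P352X

variable {D : Type*} [NormedAddCommGroup D] [InnerProductSpace ℂ D] {Q : Theory D}

theorem top3 (mf : MF3 D) (ap : AP3 D) (c : Cr Q) (h : P.CntF Q) (b : ∀ B, Q.fld B → Q.bose B) :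
    MfAll Q ∧ FSL Q := by
  obtain ⟨S, -, e⟩ := h.cnt
  have s : Sp0 Q (Submodule.span ℂ S) := fun B a z _ v hf => FE.bz (b B ((e B).2 a)) z hf v
  exact ⟨mf Q _ c h (fun B => (e B).symm) s, ap Q _ c h (fun B => (e B).symm) s⟩

theorem rep3 (mf : MF3 D) (ap : AP3 D) (c : Cr Q) (h : P.CntF Q) (b : ∀ B, Q.fld B → Q.bose B)
    (gen : ∀ w, P352NA.Cyc Q w) : ∃ A, H15.Rep Q A :=
  P352H.rep_gen Q c.mul gen (top3 mf ap c h b).1 (top3 mf ap c h b).2

end Vale.Agent.P352R.Cf
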