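import Vale.Agent.P352R.Cf.All
import Vale.Agent.P352R.Br

/-!
# P352R, block Cf: countably many covariant fields, in the republished definitions
-/

set_option autoImplicit false
set_option linter.all false

namespace Vale.Agent.P352R.Br

open Vale.Agent.P352 Vale.Agent.P352.GF
open UniformSpace (Completion)

variable {D : Type*} [NormedAddCommGroup D] [InnerProductSpace ℂ D] {Q : Theory D}
  {A : (V → V) → D → D} {N : Set V → VonNeumannAlgebra (Completion D)}

theorem cntF (hN : P.LNm Q A N) (h : P.CntF Q) : P.MfA Q ∧ P.FSL Q :=
  (Cf.cfb_all Q A N (lnm.1 hN) h).imp_left mfa.2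

end Vale.Agent.P352R.Br
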