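import Vale.Agent.P352R.Ct.Wit
import Vale.Agent.P352R.Cf.Pub

/-!
# P352R, block Cf: the theory of all Wick polynomials has countably many covariant fields
-/

set_option autoImplicit false
set_option linter.all false

noncomputable section

namespace Vale.Agent.P352R

open P352 GF
open UniformSpace (Completion)

theorem cntF_tq : P.CntF fr.tq :=
  ⟨⟨_, fp_cnt, fun _ => Iff.rfl⟩, fun _ h => Submodule.span_le.2 (fun _ b => b) h,
    fun s L B hs hL hB => (fr.cvq hs hL 0 hB).imp fun _ c => ⟨c.1, fun _ => c.1, c.2⟩⟩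

open P in
/-- **the witness**, with countably many covariant fields -/
theorem witnessD : ∃ (E : Type) (_ : NormedAddCommGroup E) (_ : InnerProductSpace ℂ E)
    (Q : Theory E) (T : Ix → Ix → Fld E) (A : (V → V) → E → E)
    (N : Set V → VonNeumannAlgebra (Completion E)), ((P.Stress0 Q T ∧ P.PCh Q T A ∧
      (P.TfGen Q ∨ MfA Q) ∧ P.FSL Q ∧ P.LNm Q A N ∧ P.UVac Q ∧ P.Rec Q) ∧ P.TfGen Q ∧ MfA Q ∧
      (P.Sect Q Q .id ∧ P.Gr Q id ∧ Gnr Q A) ∧
      (∃ φ, Q.IsScalar φ 1 ∧ ∃ f, IsTest f ∧ φ f Q.vac ≠ 0) ∧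
      ¬FiniteDimensional ℂ (Completion E) ∧ ∃ f, IsTest f ∧ tr T f Q.vac ≠ 0) ∧ CntF Q :=
  have ⟨A, N, k⟩ := fr.topQ rec_fr
  ⟨D, _, _, fr.tq, Tm, A, N, k, cntF_tq⟩

end Vale.Agent.P352R
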