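import Vale.Agent.P352R.Cf.TopB
import Vale.Agent.P352R.Cf.WitR
import Vale.Agent.P352R.Cv2

/-!
# P352R, block Cf: the hypotheses on the fields
-/

set_option autoImplicit false
set_option linter.all false

namespace Vale.Agent.P352R.Br

open Vale.Agent.P352 Vale.Agent.P352.GF P
open UniformSpace (Completion)

variable {D : Type*} [NormedAddCommGroup D] [InnerProductSpace ℂ D] {Q : Theory D}
  {T : Ix → Ix → Fld D} {A : (V → V) → D → D} {N : Set V → VonNeumannAlgebra (Completion D)}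

theorem fieldsR (hT : Stress0 Q T) (hN : LNm Q A N)
    (h : CntF Q ∨ (TfGen Q ∨ MfA Q) ∧ (∀ s, 0 < s → Cov Q s one 0) ∧
      ∀ m n, ∃ F B, Scl Q (T m n) F B) :
    (TfGen Q ∨ MfA Q) ∧ (∀ s, 0 < s → Cov Q s one 0) ∧ ∀ m n, ∃ F B, Scl Q (T m n) F B :=
  h.elim (fun c => have ⟨a, b⟩ := cntF hN c
    ⟨.inr a, Cw.cd_of (P352X.Fss.G.m1_rep (lnm.1 hN).toRep) b,
      fun m n => b _ (Q.bose_fld _ (hT.bose m n))⟩) id

end Vale.Agent.P352R.Br
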