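import Vale.Agent.P352W.Fin
import Vale.Agent.P352H.Tfg
import Vale.Agent.P352R.Cf.Pub

/-!
# P352R, block Cf: the linear hull of the free theory has countably many covariant fields (helper80)
-/

set_option autoImplicit false
set_option linter.all false

noncomputable section

namespace Vale.Agent.P352R.Cf.Wb

open P352 GF H246 H15 BW P352X P352W
open P352.ND (PCh)
open P352L.StA (hull sp_of sp_ind)
open UniformSpace (Completion)

variable {D : Type*} [NormedAddCommGroup D] [InnerProductSpace ℂ D] {Q : Theory D}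

/-- the hull of countably many Bose fields with finite transformation laws -/
theorem cntF (c : {B | Q.fld B}.Countable) (b : ∀ B, Q.fld B → Q.bose B)
    (u : ∀ s L v, 0 < s → IsLor L → Q.U s L 0 (Q.U s⁻¹ (linv L) 0 v) = v)
    (k : ∀ s L B, 0 < s → IsLor L → Q.fld B → ∃ (ι : Type) (_ : Fintype ι) (x : ι → ℂ)
      (C : ι → Fld D), (∀ i, Q.fld (C i)) ∧ ∀ f v, IsTest f → B f (Q.U s L 0 v) =
        ∑ i, x i • Q.U s L 0 (C i (fun y => f (sim s L 0 y)) v)) : P.CntF (hull Q) := by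
  have e : ∀ B, (hull Q).fld B → (hull Q).bose B := fun B h => Submodule.span_mono (fun B => b B) h
  refine ⟨⟨_, c, fun _ => Iff.rfl⟩, fun B hB => Submodule.span_le.2 (fun _ h => h) hB,
    fun s L B hs hL hB => ?_⟩
  suffices ∃ C, (hull Q).fld C ∧ ∀ f v, IsTest f →
      Q.U s L 0 (B (fun x => f (sim s L 0 x)) v) = C f (Q.U s L 0 v) from
    this.imp fun C h => ⟨h.1, fun _ => e C h.1, h.2⟩
  refine sp_ind (p := fun B => ∃ C, (hull Q).fld C ∧ ∀ f v, IsTest f →
      Q.U s L 0 (B (fun x => f (sim s L 0 x)) v) = C f (Q.U s L 0 v)) hB (fun B hB => ?_)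
    ⟨0, zero_mem _, fun f v _ => map_zero (ueI Q hs hL 0)⟩
    fun B C x ⟨B', b, b'⟩ ⟨C', c, c'⟩ =>
      ⟨B' + x • C', add_mem b (Submodule.smul_mem _ _ c), fun f v hf => ?_⟩
  · obtain ⟨ι, _, x, C, p, q⟩ := k s⁻¹ (linv L) B (inv_pos.2 hs) (isLor_linv hL) hB
    refine ⟨∑ i, x i • C i, sum_mem fun i _ => Submodule.smul_mem _ _ (sp_of (p i)),
      fun f v hf => ?_⟩
    have := q _ (Q.U s L 0 v) (Ap.test_sim hs hL 0 hf)
    have i (y) : sim s L 0 (sim s⁻¹ (linv L) 0 y) = y := by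
      have := Fk.U.mm_l (inv_pos.2 hs) hL y
      rwa [inv_inv] at this
    rw [show Q.U s⁻¹ (linv L) 0 (Q.U s L 0 v) = v from
      (ueI Q hs hL 0).injective (u s L _ hs hL)] at this
    rw [this, ← ueI_apply hs hL, map_sum]
    simp only [map_smul, ueI_apply, u s L _ hs hL, i, Finset.sum_apply, Pi.smul_apply]
  · rw [← ueI_apply hs hL, map_add, map_smul, ueI_apply, ueI_apply, b' f v hf, c' f v hf]
    rfl

variable {Ω : D} {φ : Fld D} {T : Ix → Ix → Fld D} {U : ℝ → (Ix → V) → V → D → D}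

theorem fp_cnt : {B | Fp φ T B}.Countable := by
  refine ((Set.countable_singleton φ).union (Set.countable_range fun p : Ix × Ix =>
    T p.1 p.2)).mono ?_
  rintro B (rfl | ⟨m, n, rfl⟩)
  exacts [.inl rfl, .inr ⟨(m, n), rfl⟩]

theorem free_cntF (h : Free Ω φ T U) : P.CntF (hull h.th) := by
  refine cntF fp_cnt (fun _ b => b) (fun s L v hs hL => ?_) ?_
  · refine (h.U_mul s L 0 s⁻¹ (linv L) 0 v hs (inv_pos.2 hs) hL (isLor_linv hL)).trans ?_
    rw [H755.linv_id hL, mul_inv_cancel₀ hs.ne', show sim s L 0 0 = 0 from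
      funext fun n => by simp [sim]]
    exact H755.Uone (Q := h.th) v
  · rintro s L B hs hL (rfl | ⟨m, n, rfl⟩)
    · exact ⟨Unit, inferInstance, fun _ => ((s ^ 3 : ℝ) : ℂ), fun _ => B, fun _ => h.fp,
        fun f v hf => (h.cov_phi s L 0 f v hs hL hf).trans (by rw [Fintype.sum_unique]; rfl)⟩
    · exact ⟨Ix × Ix, inferInstance, fun p => (L p.1 m * L p.2 n : ℂ), fun p => T p.1 p.2,
        fun _ => h.fT _ _, fun f v hf =>
          (h.cov_T m n s L 0 f v hs hL hf).trans (Fintype.sum_prod_type' _).symm⟩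

end Vale.Agent.P352R.Cf.Wb

namespace Vale.Agent.P352R.Cf

open P352 GF H246 H15 BW P352X P352W
open P352.ND (PCh)
open P352L.StA (hull sp_of)
open UniformSpace (Completion)

/-- **the witness**: all hypotheses, with countably many covariant fields -/
theorem witB : ∃ (D : Type) (_ : NormedAddCommGroup D)
    (_ : InnerProductSpace ℂ D) (Q : Theory D) (T : Ix → Ix → Fld D) (A : (V → V) → D → D)
    (N : Set V → VonNeumannAlgebra (Completion D)), Stress0 Q T ∧ PCh Q T A ∧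
      (MfAll Q ∧ FSL Q) ∧ P.CntF Q ∧ LNm Q A N ∧ L.UVac Q ∧
      (∃ φ, Q.IsScalar φ 1 ∧ ∃ f, IsTest f ∧ φ f Q.vac ≠ 0) ∧
      ¬FiniteDimensional ℂ (Completion D) ∧ ∃ f, IsTest f ∧ tr T f Q.vac ≠ 0 := by
  have h := free
  obtain ⟨A, hA⟩ := h.rep
  obtain ⟨N, hN⟩ := Net.lnm hA h.scalar h.raw h.fil
  obtain ⟨v, n, p⟩ := h.perp hA
  have s := P352H.str (h.stress hA)
  exact ⟨_, _, _, hull h.th, _, A, N, ⟨s.bose, s.symm, s.herm,
    fun m n L a f v => s.cov m n 1 L a f v one_pos, s.conserved, s.charge⟩,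
    P352H.pch hA h.fT (h.pch hA), ⟨P352H.mfa h.mf, P352H.fsl h.fsl⟩, Wb.free_cntF h,
    P352L.StA.lnm hN, h.uvac, ⟨_, ⟨sp_of h.fp, h.scalar.2⟩, h.nzp⟩, nz_dim hA h.uvac n p, h.nz⟩

end Vale.Agent.P352R.Cf
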