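import Vale.Agent.P352R.Cf.WitB
import Vale.Agent.P352NA.Pub

/-!
# P352R, block Cf: the witness, with a domain generated by Bose fields (helper80)
-/

set_option autoImplicit false
set_option linter.all false

namespace Vale.Agent.P352R.Cf

open P352 GF H246 H15 BW P352X P352W
open P352.ND (PCh)
open P352L.StA (hull sp_of)
open UniformSpace (Completion)

/-- **the witness**: all hypotheses, with countably many covariant Bose fields that generate the
domain -/
theorem witB2 : ∃ (D : Type) (_ : NormedAddCommGroup D)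
    (_ : InnerProductSpace ℂ D) (Q : Theory D) (T : Ix → Ix → Fld D) (A : (V → V) → D → D)
    (N : Set V → VonNeumannAlgebra (Completion D)), (Stress0 Q T ∧ PCh Q T A ∧
      (MfAll Q ∧ FSL Q) ∧ P.CntF Q ∧ LNm Q A N ∧ L.UVac Q ∧
      (∃ φ, Q.IsScalar φ 1 ∧ ∃ f, IsTest f ∧ φ f Q.vac ≠ 0) ∧
      ¬FiniteDimensional ℂ (Completion D) ∧ ∃ f, IsTest f ∧ tr T f Q.vac ≠ 0) ∧
      (∀ w, P352NA.Cyc Q w) ∧ ∀ B, Q.fld B → Q.bose B := by
  have h := free
  obtain ⟨A, hA⟩ := h.rep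
  obtain ⟨N, hN⟩ := Net.lnm hA h.scalar h.raw h.fil
  obtain ⟨v, n, p⟩ := h.perp hA
  have s := P352H.str (h.stress hA)
  exact ⟨_, _, _, hull h.th, _, A, N, ⟨⟨s.bose, s.symm, s.herm,
    fun m n L a f v => s.cov m n 1 L a f v one_pos, s.conserved, s.charge⟩,
    P352H.pch hA h.fT (h.pch hA), ⟨P352H.mfa h.mf, P352H.fsl h.fsl⟩, Wb.free_cntF h,
    P352L.StA.lnm hN, h.uvac, ⟨_, ⟨sp_of h.fp, h.scalar.2⟩, h.nzp⟩, nz_dim hA h.uvac n p, h.nz⟩,
    fun w S a b => h.gen S a (fun B f v k => b B f v (sp_of k)) w, fun _ b => b⟩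

end Vale.Agent.P352R.Cf
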