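import Vale.Agent.P352R.Cf.WitB
import Vale.Agent.P352W.Fin2

/-!
# P352R, block Cf: the graded witness with countably many covariant fields (helper85)
-/

set_option autoImplicit false
set_option linter.all false

noncomputable section

namespace Vale.Agent.P352R.Cf

open P352 GF H246 H15 BW P352X P352W
open P352.ND (PCh)
open P352L.StA (hull sp_of sp_ind)
open UniformSpace (Completion)

namespace Wg

variable {D : Type*} [NormedAddCommGroup D] [InnerProductSpace ℂ D] {Q : Theory D}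

theorem lb (e : Egr.Lb Q) : Egr.Lb (hull Q) := fun B f hB hf =>
  sp_ind (p := fun B => ∃ C : ℝ, ∀ v y, HasDerivAt (fun t : ℝ => Q.U 1 GF.one (bas o t) v) y 0 →
    ‖B f v‖ ≤ C * (‖v‖ + ‖y‖)) hB (fun B h => e B f h hf) ⟨0, by simp⟩
    fun B C a ⟨x, p⟩ ⟨y, q⟩ => ⟨x + ‖a‖ * y, fun v z d => (norm_add_le _ _).trans (by
      rw [norm_smul, add_mul, mul_assoc]
      exact add_le_add (p v z d) (mul_le_mul_of_nonneg_left (q v z d) (norm_nonneg _)))⟩

theorem z0_eq (a : Q.fld 0) (b : Q.bose 0) : Egr.z0 Q = Q := by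
  have e : ∀ P : Fld D → Prop, P 0 → (fun B => P B ∨ B = 0) = P := fun P h =>
    funext fun B => propext ⟨fun k => k.elim id fun e => e ▸ h, .inl⟩
  cases Q
  simp only [Egr.z0, Theory.mk.injEq, true_and, and_true]
  exact ⟨e _ a, e _ b⟩

end Wg

/-- **the graded witness**: all hypotheses, with countably many covariant fields -/
theorem witG : ∃ (D : Type) (_ : NormedAddCommGroup D) (_ : InnerProductSpace ℂ D)
    (Q : Theory D) (G : D → D) (T : Ix → Ix → Fld D) (A : (V → V) → D → D)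
    (Γ : Completion D →L[ℂ] Completion D) (N : Set V → VonNeumannAlgebra (Completion D)),
      Stress0 Q T ∧ PCh Q T A ∧ MfAll Q ∧ FSL Q ∧ LNg Q G A Γ N ∧ L.UVac Q ∧ EBd Q ∧ P.CntF Q ∧
      (∃ φ, Q.IsScalar φ 1 ∧ ∃ f, IsTest f ∧ φ f Q.vac ≠ 0) ∧
      ¬FiniteDimensional ℂ (Completion D) ∧ ∃ f, IsTest f ∧ tr T f Q.vac ≠ 0 := by
  have h := free
  obtain ⟨A, hA⟩ := h.rep
  obtain ⟨N, hN⟩ := Net.lnm hA h.scalar h.raw h.fil
  obtain ⟨v, n, p⟩ := h.perp hA
  have s := P352H.str (h.stress hA)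
  have k := Egr.gr (Q := hull h.th) (fun _ a => a) ⟨s.bose, s.symm, s.herm,
    fun m n L a f v => s.cov m n 1 L a f v one_pos, s.conserved, s.charge⟩
    (P352H.pch hA h.fT (h.pch hA)) (P352H.mfa h.mf) (P352H.fsl h.fsl) (P352L.StA.lnm hN) h.uvac
    (Wg.lb (Eb.eb fun _ _ => Fk.Cov.wd_gm one_pos isLor_one))
  rw [Wg.z0_eq (zero_mem _) (zero_mem _)] at k
  exact ⟨_, _, _, hull h.th, _, _, A, _, N, k.1, k.2.1, k.2.2.1, k.2.2.2.1, k.2.2.2.2.1,
    k.2.2.2.2.2.1, k.2.2.2.2.2.2, Wb.free_cntF h, ⟨_, ⟨sp_of h.fp, h.scalar.2⟩, h.nzp⟩,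
    nz_dim hA h.uvac n p, h.nz⟩

end Vale.Agent.P352R.Cf
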