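import Vale.Agent.P352R.Cf.WitB
import Vale.Agent.P352W.Eb.All

/-!
# P352R, block Cf: the graded witness, with countably many covariant fields (helper80)
-/

set_option autoImplicit false
set_option linter.all false

namespace Vale.Agent.P352R.Cf

open P352 GF H246 H15 BW P352X P352W
open P352.ND (PCh)
open P352L.StA (hull sp_of sp_ind)
open UniformSpace (Completion)

namespace Wb

variable {D : Type*} [NormedAddCommGroup D] [InnerProductSpace ℂ D] {Q : Theory D}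

theorem lb (e : Egr.Lb Q) : Egr.Lb (hull Q) := fun B f hB hf => by
  suffices ∃ C : ℝ, 0 ≤ C ∧ ∀ v y, HasDerivAt (fun t : ℝ => Q.U 1 GF.one (bas o t) v) y 0 →
      ‖B f v‖ ≤ C * (‖v‖ + ‖y‖) from this.imp fun _ h => h.2
  refine sp_ind (p := fun B => ∃ C : ℝ, 0 ≤ C ∧ ∀ v y,
    HasDerivAt (fun t : ℝ => Q.U 1 GF.one (bas o t) v) y 0 → ‖B f v‖ ≤ C * (‖v‖ + ‖y‖)) hB
    (fun B hB => ?_) ⟨0, le_rfl, by simp⟩ fun B C x ⟨a, a0, p⟩ ⟨b, b0, q⟩ =>
      ⟨a + ‖x‖ * b, by positivity, fun v y d => (norm_add_le _ _).trans ?_⟩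
  · obtain ⟨C, c⟩ := e B f hB hf
    exact ⟨|C|, abs_nonneg C, fun v y d =>
      (c v y d).trans (mul_le_mul_of_nonneg_right (le_abs_self C) (by positivity))⟩
  · rw [norm_smul, add_mul, mul_assoc]
    exact add_le_add (p v y d) (mul_le_mul_of_nonneg_left (q v y d) (norm_nonneg x))

theorem z0_cnt (h : P.CntF (hull Q)) : P.CntF (Egr.z0 (hull Q)) := by
  have a : ∀ B, (Egr.z0 (hull Q)).fld B ↔ (hull Q).fld B := fun B =>
    or_iff_left_of_imp fun e => e ▸ zero_mem _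
  have b : ∀ B, (Egr.z0 (hull Q)).bose B ↔ (hull Q).bose B := fun B =>
    or_iff_left_of_imp fun e => e ▸ zero_mem _
  refine ⟨?_, ?_, fun s L B hs hL hB => ?_⟩
  · simpa only [a] using h.cnt
  · simpa only [b] using h.sub
  · simp only [a, b]
    exact h.cov s L B hs hL ((a B).1 hB)

end Wb

/-- **the graded witness**, with countably many covariant fields -/
theorem witG2 : ∃ (D : Type) (_ : NormedAddCommGroup D) (_ : InnerProductSpace ℂ D)
    (Q : Theory D) (G : D → D) (T : Ix → Ix → Fld D) (A : (V → V) → D → D)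
    (Γ : Completion D →L[ℂ] Completion D) (N : Set V → VonNeumannAlgebra (Completion D)),
      (Stress0 Q T ∧ PCh Q T A ∧ MfAll Q ∧ FSL Q ∧ LNg Q G A Γ N ∧ L.UVac Q ∧ EBd Q ∧
      (∃ φ, Q.IsScalar φ 1 ∧ ∃ f, IsTest f ∧ φ f Q.vac ≠ 0) ∧
      ¬FiniteDimensional ℂ (Completion D) ∧ ∃ f, IsTest f ∧ tr T f Q.vac ≠ 0) ∧ P.CntF Q := by
  have h := free
  obtain ⟨A, hA⟩ := h.rep
  obtain ⟨N, hN⟩ := Net.lnm hA h.scalar h.raw h.fil
  obtain ⟨v, n, p⟩ := h.perp hA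
  have s := P352H.str (h.stress hA)
  have ⟨a, b, c, d, e, f, g⟩ := Egr.gr (Q := hull h.th) (fun _ b => b) ⟨s.bose, s.symm, s.herm,
    fun m n L a f v => s.cov m n 1 L a f v one_pos, s.conserved, s.charge⟩
    (P352H.pch hA h.fT (h.pch hA)) (P352H.mfa h.mf) (P352H.fsl h.fsl) (P352L.StA.lnm hN) h.uvac
    (Wb.lb (Eb.eb fun _ _ => Fk.Cov.wd_gm one_pos isLor_one))
  exact ⟨_, _, _, _, _, _, A, _, N, ⟨a, b, c, d, e, f, g,
    ⟨_, Egr.scalar ⟨sp_of h.fp, h.scalar.2⟩, h.nzp⟩, nz_dim hA h.uvac n p, h.nz⟩,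
    Wb.z0_cnt (Wb.free_cntF h)⟩

end Vale.Agent.P352R.Cf
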